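import Vale.Agent.P027M.Th.Defs
import Vale.Agent.P022.H29.L3.Onto

/-! # P027 route M, block Th: row CST -/

set_option linter.all false

noncomputable section

namespace Vale.Agent.P027M.Th

open Filter Topology UpperHalfPlane Vale.Agent.P022 Vale.Agent.P022.H218.L3
open scoped MatrixGroups ModularForm

theorem coe_smul_eq_mob (γ : SL(2, ℤ)) (τ : ℍ) : ((γ • τ : ℍ) : ℂ) = mob γ τ := by
  rw [specialLinearGroup_apply]
  simp [mob, dn]

theorem tendsto_coe_atI : Tendsto (fun τ : ℍ => (τ : ℂ)) atImInfty atI :=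
  tendsto_coe_atImInfty

theorem cst : CST := by
  intro Γ _ G hG hinv hlim
  have hsl : ∀ γ : SL(2, ℤ), (fun τ : ℍ => G τ) ∣[(0 : ℤ)] γ = fun τ : ℍ => G (mob γ τ) := by
    intro γ
    funext τ
    rw [H29.L3.slash_zero_apply, coe_smul_eq_mob]
  have hM : IsMF Γ 0 (fun τ : ℍ => G τ) := by
    refine ⟨?_, fun γ hγ => ?_, fun γ => ?_⟩
    · rw [mem_Hol, UpperHalfPlane.mdifferentiable_iff]
      refine hG.congr fun w hw => ?_
      simp only [Function.comp_apply, ofComplex_apply_of_im_pos hw]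
    · rw [hsl]
      funext τ
      exact hinv γ hγ τ τ.im_pos
    · rw [hsl]
      obtain ⟨L, hL⟩ := hlim γ
      exact (hL.comp tendsto_coe_atI).isBigO_one ℝ
  obtain ⟨c, hc⟩ := H29.L3.const_of_isMF_zero hM
  exact ⟨c, fun w hw => congrFun hc ⟨w, hw⟩⟩

end Vale.Agent.P027M.Th
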