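import Vale.Agent.P027M.Th.Defs
import Vale.Agent.P022.H964.Lat
import Vale.Agent.P022.H420.Po

/-! # P027 route M, block Th: all translates of a theta series are theta series -/

set_option autoImplicit false

noncomputable section

namespace Vale.Agent.P027M.Th

open UpperHalfPlane hiding I
open Vale.Agent.P022 Vale.Agent.P022.H964
open scoped MatrixGroups Real ModularForm

namespace Cusp

/-- coordinates -/
def eqv : ℤ × ℤ ≃ GaussianInt where
  toFun v := ⟨v.1, v.2⟩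
  invFun α := (α.re, α.im)
  left_inv _ := rfl
  right_inv _ := rfl

theorem tht_eq (f : GaussianInt → ℂ) (w : ℂ) :
    tht f w = th 1 0 1 4 1 (fun v => f (eqv v)) w := by
  rw [tht, th, ← eqv.tsum_eq]
  refine tsum_congr fun v => ?_
  have h4 : Real.sqrt ((4 : ℕ) : ℝ) = 2 := by
    rw [show ((4 : ℕ) : ℝ) = 2 ^ 2 by norm_num, Real.sqrt_sq (by norm_num)]
  have h1 : ((eqv v : GaussianInt) : ℂ) = ev 1 0 4 v := by
    rw [ev, h4, GaussianInt.toComplex_def]
    change (v.1 : ℂ) + (v.2 : ℂ) * Complex.I = _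
    push_cast
    ring
  have h2 : (eqv v).norm = Qf 1 0 1 v := by
    rw [Zsqrtd.norm_def, Qf]
    change v.1 * v.1 - -1 * v.2 * v.2 = _
    ring
  rw [thT, h1, h2, pow_one, ee, mul_assoc (2 * π * Complex.I)]

theorem per {M : GaussianInt} {f : GaussianInt → ℂ} (hf : PerG M f) :
    Per M.norm.natAbs (fun v => f (eqv v)) := by
  intro v u
  refine hf _ _ ⟨star M * eqv u, ?_⟩
  rw [← mul_assoc, ← Zsqrtd.norm_eq_mul_conj, Int.natAbs_of_nonneg (GaussianInt.norm_nonneg M)]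
  ext <;> simp [eqv]

theorem bd {q : ℕ} (hq : 0 < q) {g : ℤ × ℤ → ℂ} (hg : Per q g) : Bd (fun α => g (eqv.symm α)) := by
  obtain ⟨B, -, hB⟩ := per_bounded hq hg
  exact ⟨B, fun α => hB _⟩

end Cusp

open Cusp in
/-- all translates are theta series -/
theorem cusp : CUSP := by
  intro M f hM hf
  have hq : 0 < M.norm.natAbs := Int.natAbs_pos.2 fun h => hM (GaussianInt.norm_eq_zero.1 h)
  refine ⟨by simpa using bd hq (per hf), fun γ => ?_⟩
  have hF : (fun τ : ℍ => tht f τ) ∈ V 1 0 1 4 1 :=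
    ⟨1, 1, _, _, one_pos, hq, per hf, fun τ => by simp [Th, tht_eq]⟩
  have h1 : (fun τ : ℍ => tht f τ) ∣[((1 : ℕ) + 1 : ℤ)] γ ∈ V 1 0 1 4 1 := by
    refine stable (k := ((1 : ℕ) + 1 : ℤ)) (V := V 1 0 1 4 1)
      (fun f hf => V_S H420.po one_pos (by norm_num) (by norm_num) 1 hf) (fun f hf => ?_)
      (fun f hf => ?_) γ _ hF
    · simpa using V_T 1 0 1 4 1 hf 1
    · simpa using V_T 1 0 1 4 1 hf (-1)
  obtain ⟨C, ρ, g, q, hρ, hq', hg, h⟩ := h1
  refine ⟨C, ρ, fun α => g (eqv.symm α), by exact_mod_cast hρ, bd hq' hg, fun w hw => ?_⟩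
  have h2 := h ⟨w, hw⟩
  have hd : dn γ w ≠ 0 := by
    have := denom_ne_zero (γ : GL (Fin 2) ℝ) ⟨w, hw⟩
    rwa [ModularGroup.denom_apply] at this
  have e : ((γ • (⟨w, hw⟩ : ℍ) : ℍ) : ℂ) = mob γ w := by
    rw [specialLinearGroup_apply]
    simp [mob, dn]
  have e2 : denom (γ : GL (Fin 2) ℝ) (⟨w, hw⟩ : ℍ) = dn γ w := ModularGroup.denom_apply _ _
  rw [ModularForm.SL_slash_apply, e, e2] at h2
  have h3 : tht (fun α => g (eqv.symm α)) (((ρ : ℝ) : ℂ) * w) = Th 1 0 1 4 1 ρ g ⟨w, hw⟩ := by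
    rw [tht_eq, Th]
    simp
  rw [h3, mul_right_comm, ← h2, show (-((1 : ℕ) + 1 : ℤ)) = -((2 : ℕ) : ℤ) by norm_num, zpow_neg,
    zpow_natCast, inv_mul_cancel_right₀ (pow_ne_zero 2 hd)]

end Vale.Agent.P027M.Th
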