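import Vale.Agent.P027M.Th.Defs

/-! # P027 route M, row Th.HEK: the Hecke relation for the primitive of a theta series -/

noncomputable section

namespace Vale.Agent.P027M.Th.Hek

open Vale.Agent.P027M.Th
open scoped Real

theorem ee_add (x y : ℂ) : ee (x + y) = ee x * ee y := by
  rw [ee, ee, ee, ← Complex.exp_add, mul_add]

theorem ee_pow (x : ℂ) (j : ℕ) : ee (j * x) = ee x ^ j := by
  rw [ee, ee, ← Complex.exp_nat_mul]
  congr 1
  ring

theorem ee_eq_one {l : ℕ} (hl : l ≠ 0) (n : ℤ) : ee (n / l) = 1 ↔ (l : ℤ) ∣ n := by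
  have h1 : (l : ℂ) ≠ 0 := by exact_mod_cast hl
  have h2 : (2 * π * Complex.I : ℂ) ≠ 0 := Complex.two_pi_I_ne_zero
  rw [ee, Complex.exp_eq_one_iff]
  refine exists_congr fun k => ?_
  rw [mul_comm (k : ℂ), mul_right_inj' h2, div_eq_iff h1, mul_comm]
  norm_cast

theorem sum_ee {l : ℕ} (hl : l ≠ 0) (n : ℤ) :
    ∑ j : Fin l, ee (n / l) ^ (j : ℕ) = if (l : ℤ) ∣ n then (l : ℂ) else 0 := by
  have h1 : (l : ℂ) ≠ 0 := by exact_mod_cast hl
  split_ifs with h
  · simp [(ee_eq_one hl n).2 h]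
  · rw [Fin.sum_univ_eq_sum_range fun j => ee (n / l) ^ j,
      geom_sum_eq fun e => h ((ee_eq_one hl n).1 e), ← ee_pow, mul_div_cancel₀ _ h1]
    have := (ee_eq_one one_ne_zero n).2 (by simp)
    rw [Nat.cast_one, div_one] at this
    rw [this, sub_self, zero_div]

theorem im_pos {l : ℕ} (hl : l ≠ 0) {w : ℂ} (hw : 0 < w.im) (j : ℕ) : 0 < ((w + j) / l).im := by
  have h1 : (0 : ℝ) < l := by exact_mod_cast Nat.pos_of_ne_zero hl
  rw [Complex.div_natCast_im]
  simpa using div_pos hw h1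

theorem step1 (hA : AN) {f : GaussianInt → ℂ} (hf : Bd f) {l : ℕ} (hl : l ≠ 0) {w : ℂ}
    (hw : 0 < w.im) : HasSum (fun α : GaussianInt => if (l : ℤ) ∣ α.norm then
      l * prT f (w / l) α else 0) (∑ j : Fin l, pri f ((w + (j : ℕ)) / l)) := by
  refine (hasSum_sum fun (j : Fin l) _ =>
    ((hA f hf).1 _ (im_pos hl hw j)).1.hasSum).congr_fun fun α => ?_
  have e : ∀ j : Fin l, prT f ((w + (j : ℕ)) / l) α =
      ee (α.norm / l) ^ (j : ℕ) * prT f (w / l) α := by
    intro j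
    rw [prT, prT, ← ee_pow, mul_left_comm, ← ee_add]
    congr 2
    ring
  simp only [e]
  rw [← Finset.sum_mul, sum_ee hl]
  split_ifs <;> simp

open Classical in
theorem step2 {t : GaussianInt → ℂ} {p : GaussianInt} (hp : p ≠ 0) {S : ℂ}
    (h : HasSum (fun β => t (p * β)) S) : HasSum (fun α => if p ∣ α then t α else 0) S := by
  refine ((mul_right_injective₀ hp).hasSum_iff fun α hα => ?_).1 (h.congr_fun fun β => ?_)
  · exact if_neg fun ⟨β, hβ⟩ => hα ⟨β, hβ.symm⟩
  · exact if_pos (dvd_mul_right p β)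

theorem term1 {f : GaussianInt → ℂ} (hf : ∀ a b, f (a * b) = f a * f b) {l : ℕ} (hl : l ≠ 0)
    {p : GaussianInt} (hp : p.norm = l) (w : ℂ) (β : GaussianInt) :
    l * prT f (w / l) (p * β) = f p * p * prT f w β := by
  have h1 : (l : ℂ) ≠ 0 := by exact_mod_cast hl
  rw [prT, prT, hf, Zsqrtd.norm_mul, hp, map_mul]
  push_cast
  rw [show (l : ℂ) * β.norm * (w / l) = β.norm * w by field_simp]
  by_cases h : (β.norm : ℂ) = 0
  · simp [h]
  · field_simp

theorem term2 {f : GaussianInt → ℂ} (hf : ∀ a b, f (a * b) = f a * f b) {l : ℕ} (hl : l ≠ 0)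
    (w : ℂ) (β : GaussianInt) :
    l * prT f (w / l) (l * β) = f l * prT f (l * w) β := by
  have h1 : (l : ℂ) ≠ 0 := by exact_mod_cast hl
  rw [prT, prT, hf, Zsqrtd.norm_mul, Zsqrtd.norm_natCast, map_mul, map_natCast]
  push_cast
  rw [show (l : ℂ) * l * β.norm * (w / l) = β.norm * (l * w) by field_simp]
  by_cases h : (β.norm : ℂ) = 0
  · simp [h]
  · field_simp

theorem norm_dvd {a b : GaussianInt} (h : a ∣ b) : a.norm ∣ b.norm := by
  obtain ⟨c, rfl⟩ := h
  exact ⟨c.norm, Zsqrtd.norm_mul _ _⟩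

theorem star_dvd {a b : GaussianInt} (h : a ∣ star b) : star a ∣ b := by
  obtain ⟨c, hc⟩ := h
  exact ⟨star c, by rw [← star_mul', ← hc, star_star]⟩

theorem cast_dvd {l : ℕ} {α : GaussianInt} (h : (l : ℤ) ∣ α.norm) :
    (l : GaussianInt) ∣ α * star α := by
  rw [← Zsqrtd.norm_eq_mul_conj]
  exact_mod_cast (Zsqrtd.intCast_dvd_intCast (d := -1) _ _).2 h

theorem inert {l : ℕ} (hl : l.Prime) (h3 : l % 4 = 3) (α : GaussianInt) :
    (l : ℤ) ∣ α.norm ↔ (l : GaussianInt) ∣ α := by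
  have := Fact.mk hl
  refine ⟨fun h => ?_, fun h => ?_⟩
  · rcases (GaussianInt.prime_of_nat_prime_of_mod_four_eq_three l h3).dvd_or_dvd (cast_dvd h)
      with h | h
    · exact h
    · simpa using star_dvd h
  · have := norm_dvd h
    rw [Zsqrtd.norm_natCast] at this
    exact (dvd_mul_right _ _).trans this

theorem irr {l : ℕ} (hl : l.Prime) {p : GaussianInt} (hp : p.norm = l) : Irreducible p := by
  refine ⟨fun h => ?_, fun a b h => ?_⟩
  · have := Zsqrtd.norm_eq_one_iff.2 h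
    rw [hp, Int.natAbs_natCast] at this
    exact hl.ne_one this
  · rw [h, Zsqrtd.norm_mul] at hp
    have h1 := congrArg Int.natAbs hp
    rw [Int.natAbs_mul, Int.natAbs_natCast] at h1
    rw [← Zsqrtd.norm_eq_one_iff, ← Zsqrtd.norm_eq_one_iff]
    rw [← h1] at hl
    exact (Nat.prime_mul_iff.1 hl).symm.imp And.right And.right

theorem cop {l : ℕ} (hl : l.Prime) (h1 : l % 4 = 1) {p : GaussianInt} (hp : p.norm = l) :
    IsCoprime p (star p) := by
  rw [(irr hl hp).coprime_iff_not_dvd]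
  intro h
  have hl' : Prime (l : ℤ) := Nat.prime_iff_prime_int.1 hl
  have h2 : ¬ (l : ℤ) ∣ 2 := fun h => by
    have := Int.le_of_dvd two_pos h
    have := hl.two_le
    omega
  have key : ∀ x : ℤ, (l : ℤ) ∣ 2 * x * (2 * x) → (l : ℤ) ∣ x := fun x hx =>
    (hl'.dvd_or_dvd ((hl'.dvd_or_dvd hx).elim id id)).resolve_left h2
  have h3 := norm_dvd (dvd_add dvd_rfl h)
  have h4 := norm_dvd (dvd_sub dvd_rfl h)
  rw [hp, Zsqrtd.norm_def] at h3 h4
  obtain ⟨x, hx⟩ := key p.re (by convert h3 using 1; simp; ring)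
  obtain ⟨y, hy⟩ := key p.im (by convert h4 using 1; simp; ring)
  rw [Zsqrtd.norm_def, hx, hy] at hp
  have h5 : (l : ℤ) * (l * (x * x + y * y)) = l * 1 := by linear_combination hp
  exact hl'.not_dvd_one ⟨_, (mul_left_cancel₀ hl'.ne_zero h5).symm⟩

open Classical in
theorem split {l : ℕ} (hl : l.Prime) (h1 : l % 4 = 1) {p : GaussianInt} (hp : p.norm = l)
    (α : GaussianInt) (t : ℂ) : (if (l : ℤ) ∣ α.norm then t else 0) =
      (if p ∣ α then t else 0) + (if star p ∣ α then t else 0) -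
        if (l : GaussianInt) ∣ α then t else 0 := by
  have hpl : (l : GaussianInt) = p * star p := by
    rw [← Zsqrtd.norm_eq_mul_conj, hp, Int.cast_natCast]
  have h2 : (l : ℤ) ∣ α.norm ↔ p ∣ α ∨ star p ∣ α := by
    refine ⟨fun h => ?_, fun h => ?_⟩
    · have h3 := cast_dvd h
      rw [hpl] at h3
      exact ((irr hl hp).prime.dvd_or_dvd ((dvd_mul_right _ _).trans h3)).imp id star_dvd
    · rcases h with h | h
      · exact hp ▸ norm_dvd h
      · have := norm_dvd h
        rwa [Zsqrtd.norm_conj, hp] at this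
  have h3 : (l : GaussianInt) ∣ α ↔ p ∣ α ∧ star p ∣ α := by
    rw [hpl]
    exact ⟨fun h => ⟨(dvd_mul_right _ _).trans h, (dvd_mul_left _ _).trans h⟩,
      fun h => (cop hl h1 hp).mul_dvd h.1 h.2⟩
  by_cases h4 : p ∣ α <;> by_cases h5 : star p ∣ α <;> simp [h2, h3, h4, h5]

theorem hek : Spec_HEK := by
  intro hA ξ l b hf hB w hw
  classical
  obtain ⟨hl, hB⟩ := hB
  set f : GaussianInt → ℂ := fun α => ((star (ξ α) : GaussianInt) : ℂ) with hfd
  have hm : ∀ a b, f (a * b) = f a * f b := fun a b => by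
    simp only [hfd, map_mul, star_mul']
  have hl0 := hl.ne_zero
  have s1 := step1 hA hf hl0 hw
  have hlw : 0 < ((l : ℂ) * w).im := by
    have : (0 : ℝ) < l := by exact_mod_cast hl.pos
    simpa using mul_pos this hw
  have s2 := step2 (t := fun α => l * prT f (w / l) α) (p := l) (by exact_mod_cast hl0)
    ((((hA f hf).1 _ hlw).1.hasSum.mul_left (f l)).congr_fun (term2 hm hl0 w))
  rcases hB with ⟨h3, rfl⟩ | ⟨h1, p, hp, rfl⟩
  · have e := s1.unique (s2.congr_fun fun α => by simp only [inert hl h3])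
    have hc : c4 l = -1 := ZMod.χ₄_int_three_mod_four (by omega)
    rw [e, eTh, hc, Int.cast_natCast, map_mul, map_intCast, map_zero, pri]
    simp [hfd]
  · have hp0 : ∀ q : GaussianInt, q.norm = l → q ≠ 0 := by
      rintro q hq rfl
      exact hl0 (by simpa using hq.symm)
    have s3 : ∀ q : GaussianInt, q.norm = l → HasSum
        (fun α => if q ∣ α then l * prT f (w / l) α else 0) (f q * q * pri f w) := fun q hq =>
      step2 (t := fun α => l * prT f (w / l) α) (hp0 q hq)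
        ((((hA f hf).1 _ hw).1.hasSum.mul_left (f q * q)).congr_fun (term1 hm hl0 hq w))
    have e := s1.unique ((((s3 p hp).add (s3 _ ((Zsqrtd.norm_conj p).trans hp))).sub s2).congr_fun
      fun α => split hl h1 hp α _)
    have hc : c4 l = 1 := ZMod.χ₄_int_one_mod_four (by omega)
    rw [e, eTh, hc, Int.cast_natCast, Int.cast_one, one_mul, map_add, map_mul, map_mul]
    simp only [hfd, pri]
    ring

end Vale.Agent.P027M.Th.Hek
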