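import Vale.Agent.P022.H231.L3.Hec

/-! # P027 route M, block Th: the period class of a theta series over `ℤ[i]` (statements) -/

set_option linter.all false

noncomputable section

namespace Vale.Agent.P027M.Th

open Filter Topology Vale.Agent.P022.H231.L3
open scoped MatrixGroups Real

/-- `e(x)` -/
def ee (x : ℂ) : ℂ := Complex.exp (2 * π * Complex.I * x)

/-- the theta series of weight two -/
def tht (f : GaussianInt → ℂ) (w : ℂ) : ℂ :=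
  ∑' α : GaussianInt, f α * (α : ℂ) * ee ((α.norm : ℂ) * w)

/-- the terms of its primitive -/
def prT (f : GaussianInt → ℂ) (w : ℂ) (α : GaussianInt) : ℂ :=
  f α * (α : ℂ) / (α.norm : ℂ) * ee ((α.norm : ℂ) * w)

/-- its primitive -/
def pri (f : GaussianInt → ℂ) (w : ℂ) : ℂ := ∑' α : GaussianInt, prT f w α

/-- bounded coefficients -/
def Bd (f : GaussianInt → ℂ) : Prop := ∃ B : ℝ, ∀ α, ‖f α‖ ≤ B

/-- periodic coefficients -/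
def PerG {X : Type} (M : GaussianInt) (f : GaussianInt → X) : Prop := ∀ a b, M ∣ a - b → f a = f b

/-- the denominator -/
def dn (γ : SL(2, ℤ)) (w : ℂ) : ℂ := (γ 1 0 : ℂ) * w + (γ 1 1 : ℂ)

/-- the Moebius action -/
def mob (γ : SL(2, ℤ)) (w : ℂ) : ℂ := ((γ 0 0 : ℂ) * w + (γ 0 1 : ℂ)) / dn γ w

/-- `Im w → ∞` -/
def atI : Filter ℂ := comap Complex.im atTop

/-- the character modulo four -/
def c4 (d : ℤ) : ℤ := ZMod.χ₄ (d : ZMod 4)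

/-- the character of the theta series of `α ↦ α / ξ α` -/
def eTh (ξ : GaussianInt → GaussianInt) (d : ℤ) : GaussianInt := (c4 d : GaussianInt) * star (ξ d)

/-- `b` is the eigenvalue at the odd prime `l` -/
def IsB (ξ : GaussianInt → GaussianInt) (l : ℕ) (b : GaussianInt) : Prop :=
  l.Prime ∧ ((l % 4 = 3 ∧ b = 0) ∨ (l % 4 = 1 ∧ ∃ p : GaussianInt, p.norm = l ∧
    b = p * star (ξ p) + star p * star (ξ (star p))))

/-- a parabolic homomorphism on `Γ` with eigenvalues `e` (diamonds) and `B` (Hecke operators) -/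
structure Eig {R : Type} [CommRing R] (ι : GaussianInt →+* R) (N : ℕ) (Γ : Subgroup SL(2, ℤ))
    (e : ℤ → GaussianInt) (B : ℕ → GaussianInt → Prop) (c : SL(2, ℤ) → R) : Prop where
  add : ∀ γ ∈ Γ, ∀ δ ∈ Γ, c (γ * δ) = c γ + c δ
  par : ∀ (g : SL(2, ℤ)) (h : ℤ), g * ModularGroup.T ^ h * g⁻¹ ∈ Γ →
    c (g * ModularGroup.T ^ h * g⁻¹) = 0
  dia : ∀ δ : SL(2, ℤ), (N : ℤ) ∣ δ 1 0 → ∀ γ ∈ Γ, δ * γ * δ⁻¹ ∈ Γ →
    c (δ * γ * δ⁻¹) = ι (e (δ 1 1)) * c γ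
  hec : ∀ l b, B l b → ∀ d : SL(2, ℤ), IsDel 1 N l d → ∀ γ ∈ Γ,
    ∀ (s : Equiv.Perm (Option (Fin l))) (g : Option (Fin l) → SL(2, ℤ)), (∀ i, g i ∈ Γ) →
      (∀ i, al 1 l d i * (γ : Matrix (Fin 2) (Fin 2) ℤ) =
        (g i : Matrix (Fin 2) (Fin 2) ℤ) * al 1 l d (s i)) → ∑ i, c (g i) = ι b * c γ

/-! ### the rows -/

/-- convergence, derivative, leading term -/
def AN : Prop := ∀ f : GaussianInt → ℂ, Bd f →
  (∀ w : ℂ, 0 < w.im → Summable (prT f w) ∧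
    HasDerivAt (pri f) (2 * π * Complex.I * tht f w) w) ∧
  Tendsto (pri f) atI (𝓝 0) ∧
  Tendsto (fun w => pri f w * ee (-w)) atI
    (𝓝 (f 1 - f (-1) + Complex.I * (f ⟨0, 1⟩ - f ⟨0, -1⟩)))

/-- the law under `Γ₀(4 N(M))` -/
def LAW : Prop := ∀ (M : GaussianInt) (f : GaussianInt → ℂ), M ≠ 0 → PerG M f →
  ∀ γ : SL(2, ℤ), 4 * M.norm ∣ γ 1 0 → ∀ w : ℂ, 0 < w.im →
    tht f (mob γ w) = (c4 (γ 1 1) : ℂ) * dn γ w ^ 2 * tht (fun α => f ((γ 1 1 : ℤ) * α)) w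

/-- all translates are theta series -/
def CUSP : Prop := ∀ (M : GaussianInt) (f : GaussianInt → ℂ), M ≠ 0 → PerG M f → Bd f ∧
  ∀ γ : SL(2, ℤ), ∃ (C : ℂ) (ρ : ℝ) (g : GaussianInt → ℂ), 0 < ρ ∧ Bd g ∧ ∀ w : ℂ, 0 < w.im →
    tht f (mob γ w) = C * dn γ w ^ 2 * tht g (ρ * w)

/-- integration of a transformation law -/
def PRIM : Prop := ∀ (f g : GaussianInt → ℂ) (γ : SL(2, ℤ)) (C : ℂ) (ρ : ℝ), Bd f → Bd g → 0 < ρ →
  (∀ w : ℂ, 0 < w.im → tht f (mob γ w) = C * dn γ w ^ 2 * tht g (ρ * w)) →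
    ∃ k : ℂ, ∀ w : ℂ, 0 < w.im → pri f (mob γ w) = C / ρ * pri g (ρ * w) + k

/-- the Hecke relation -/
def HEK : Prop := ∀ (ξ : GaussianInt →* GaussianInt) (l : ℕ) (b : GaussianInt),
  Bd (fun α => ((star (ξ α) : GaussianInt) : ℂ)) → IsB ξ l b → ∀ w : ℂ, 0 < w.im →
    ∑ j : Fin l, pri (fun α => ((star (ξ α) : GaussianInt) : ℂ)) ((w + (j : ℕ)) / l) +
      ((eTh ξ l : GaussianInt) : ℂ) * pri (fun α => ((star (ξ α) : GaussianInt) : ℂ)) (l * w) =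
    (b : ℂ) * pri (fun α => ((star (ξ α) : GaussianInt) : ℂ)) w

/-- an invariant holomorphic function with limits at all cusps is constant -/
def CST : Prop := ∀ (Γ : Subgroup SL(2, ℤ)) [Γ.FiniteIndex] (G : ℂ → ℂ),
  DifferentiableOn ℂ G {w | 0 < w.im} → (∀ γ ∈ Γ, ∀ w : ℂ, 0 < w.im → G (mob γ w) = G w) →
  (∀ γ : SL(2, ℤ), ∃ L, Tendsto (fun w => G (mob γ w)) atI (𝓝 L)) →
    ∃ k, ∀ w : ℂ, 0 < w.im → G w = k

/-- the complex periods -/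
def PER : Prop := ∀ (M : GaussianInt) (ξ : GaussianInt →* GaussianInt) (N : ℕ)
  (Γ : Subgroup SL(2, ℤ)) [Γ.FiniteIndex], M ≠ 0 → PerG M ξ → ξ ⟨0, 1⟩ = ⟨0, 1⟩ →
  4 * M.norm ∣ (N : ℤ) → (∀ γ ∈ Γ, (N : ℤ) ∣ γ 1 0 ∧ eTh ξ (γ 1 1) = 1) →
    ∃ c, Eig GaussianInt.toComplex N Γ (eTh ξ) (IsB ξ) c ∧ ∃ γ ∈ Γ, c γ ≠ 0

/-- from complex periods to primitive Gaussian periods -/
def LAT : Prop := ∀ (N : ℕ) (Γ : Subgroup SL(2, ℤ)) [Γ.FiniteIndex] (e : ℤ → GaussianInt)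
  (B : ℕ → GaussianInt → Prop) (c : SL(2, ℤ) → ℂ), Eig GaussianInt.toComplex N Γ e B c →
  (∃ γ ∈ Γ, c γ ≠ 0) →
    ∃ c', Eig (RingHom.id GaussianInt) N Γ e B c' ∧ ∃ γ ∈ Γ, ¬ (3 : GaussianInt) ∣ c' γ

/-- **THETA** -/
def THETA : Prop := ∀ (M : GaussianInt) (ξ : GaussianInt →* GaussianInt) (N : ℕ)
  (Γ : Subgroup SL(2, ℤ)) [Γ.FiniteIndex], M ≠ 0 → PerG M ξ → ξ ⟨0, 1⟩ = ⟨0, 1⟩ →
  4 * M.norm ∣ (N : ℤ) → (∀ γ ∈ Γ, (N : ℤ) ∣ γ 1 0 ∧ eTh ξ (γ 1 1) = 1) →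
    ∃ c, Eig (RingHom.id GaussianInt) N Γ (eTh ξ) (IsB ξ) c ∧
      ∃ γ ∈ Γ, ¬ (3 : GaussianInt) ∣ c γ

def Spec_PRIM : Prop := AN → PRIM
def Spec_HEK : Prop := AN → HEK
def Spec_PER : Prop := AN → LAW → CUSP → PRIM → HEK → CST → PER

theorem theta_of (h : PER) (h' : LAT) : THETA := by
  intro M ξ N Γ _ h0 h1 h2 h3 h4
  obtain ⟨c, hc, hn⟩ := h M ξ N Γ h0 h1 h2 h3 h4
  exact h' N Γ _ _ c hc hn

end Vale.Agent.P027M.Th
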