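import Vale.Agent.P027M.Th.Kap
import Vale.Agent.P027M.Th.Defs
import Vale.Agent.P027M.TW.InDef
import Vale.Agent.P027M.TW.RhoG

/-! # P027 route M, block Th: the residual system occurs on the Kummer classes -/

set_option linter.all false

open scoped MatrixGroups

noncomputable section

namespace Vale.Agent.P027M.Th

open Vale.Agent.P022 Vale.Agent.P022.H218.L3 Vale.Agent.P022.H231.L3 Vale.Agent.P019P P025H816
  Vale.Agent.P027M.M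

section kap

variable {Γ : Subgroup SL(2, ℤ)} [CFF Qb (L Γ)] {m : ℕ}
  {κ : Additive (HK Qb (L Γ) m) →+ (SL(2, ℤ) → ZMod m)}

theorem Kap.prod (h : Kap Γ m κ) (hm : 0 < m) (X : Mdl) {I : Type} [Fintype I] (A : I → M.M2)
    (hA : ∀ i, 0 < (A i).det) {T : TW.HA Qb (L Γ) m →+ TW.HA Qb (L Γ) m}
    (hT : M.Rep (fun x => ∏ i, X.pb (A i) (hA i) x) T) (x : TW.HA Qb (L Γ) m) {γ : SL(2, ℤ)}
    (hγ : γ ∈ Γ) (s : Equiv.Perm I) (g : I → SL(2, ℤ)) (hg : ∀ i, g i ∈ Γ)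
    (hs : ∀ i, A i * (γ : M.M2) = (g i : M.M2) * A (s i)) : κ (T x) γ = ∑ i, κ x (g i) := by
  obtain ⟨f, hf, rfl⟩ := TW.cl_surj x
  obtain ⟨y, hy, h1, h2⟩ := hT f hf
  have h3 := h.rep ⟨y, hy⟩
  simp only [h1, map_prod, X.pb_coe] at h3
  rw [h2]
  exact repp Γ Γ m hm I A hA _ _ _ (h.rep ⟨f, hf⟩) h3 γ hγ s g hg hs

theorem Kap.pg (h : Kap Γ m κ) (hm : 0 < m) (X : Mdl) {δ : SL(2, ℤ)}
    {T : TW.HA Qb (L Γ) m →+ TW.HA Qb (L Γ) m} (hT : M.Rep (X.pg δ) T) (x : TW.HA Qb (L Γ) m)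
    {γ : SL(2, ℤ)} (hγ : γ ∈ Γ) (h1 : δ * γ * δ⁻¹ ∈ Γ) : κ (T x) γ = κ x (δ * γ * δ⁻¹) := by
  have := h.prod hm X (I := Unit) (fun _ => (δ : M.M2)) (fun _ => SL_pos δ) (T := T)
    (hT.congr fun x _ _ => by simp [Mdl.pg]) x hγ 1 (fun _ => δ * γ * δ⁻¹) (fun _ => h1)
    fun _ => by rw [← Matrix.SpecialLinearGroup.coe_mul, ← Matrix.SpecialLinearGroup.coe_mul,
      inv_mul_cancel_right]
  simpa using this

theorem Kap.ext (h : Kap Γ m κ) {x y : TW.HA Qb (L Γ) m} (e : ∀ γ ∈ Γ, κ x γ = κ y γ) : x = y :=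
  h.inj (funext fun γ => by
    by_cases c : γ ∈ Γ
    · exact e γ c
    · rw [(h.par x).out γ c, (h.par y).out γ c])

end kap

/-- multiplication by `3 ^ j` -/
def up3 (j : ℕ) : ZMod 3 →+ ZMod (3 ^ (j + 1)) :=
  ZMod.lift 3 ⟨zmultiplesHom _ ((3 ^ j : ℕ) : ZMod (3 ^ (j + 1))), by
    rw [zmultiplesHom_apply, natCast_zsmul, nsmul_eq_mul, ← Nat.cast_mul, ← pow_succ',
      ZMod.natCast_self]⟩

theorem up3_one (j : ℕ) : up3 j 1 ≠ 0 := by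
  have : up3 j ((1 : ℤ) : ZMod 3) = _ := ZMod.lift_coe 3 _ 1
  rw [Int.cast_one] at this
  rw [this, zmultiplesHom_apply, one_zsmul, Ne, ZMod.natCast_eq_zero_iff]
  intro h
  have := (Nat.pow_dvd_pow_iff_le_right (by norm_num)).1 h
  omega

theorem gi9_ne {w : GaussianInt} (h : ¬ (3 : GaussianInt) ∣ w) : gi i9 w ≠ 0 := by
  intro e
  have h1 : ((w.re : ℤ) : ZMod 3) = 0 := by simpa [gi, i9] using congrArg QuadraticAlgebra.re e
  have h2 : ((w.im : ℤ) : ZMod 3) = 0 := by simpa [gi, i9] using congrArg QuadraticAlgebra.im e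
  rw [ZMod.intCast_zmod_eq_zero_iff_dvd] at h1 h2
  exact h ((Zsqrtd.intCast_dvd (3 : ℤ) w).2 ⟨h1, h2⟩)

theorem eps_eq {N : ℕ} {ε : ZMod N →* GaussianInt} {M : GaussianInt}
    {ξ : GaussianInt →* GaussianInt} (h : F.Hk N ε M ξ) (d : ℤ) : ε d = eTh ξ d := by
  have : NeZero N := ⟨h.pos.ne'⟩
  obtain ⟨n, hn⟩ : ∃ n : ℕ, (n : ZMod N) = d := ⟨_, ZMod.natCast_zmod_val _⟩
  obtain ⟨u, hu⟩ : (N : ℤ) ∣ d - n :=
    (ZMod.intCast_eq_intCast_iff_dvd_sub _ _ N).1 (by rw [Int.cast_natCast, hn])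
  rw [h.lev] at hu
  have h2 : ((d : ℤ) : ZMod 4) = (n : ZMod 4) := by
    rw [← Int.cast_natCast]
    exact ((ZMod.intCast_eq_intCast_iff_dvd_sub _ _ 4).2 ⟨M.norm * u, by rw [hu]; ring⟩).symm
  have h3 : M ∣ ((d : ℤ) : GaussianInt) - (n : GaussianInt) := by
    refine ⟨star M * 4 * u, ?_⟩
    rw [← Int.cast_natCast, ← Int.cast_sub, hu]
    push_cast
    rw [Zsqrtd.norm_eq_mul_conj]
    ring
  rw [← hn, h.eps, eTh, c4, h2, h.per _ _ h3]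

theorem exists_isB {N : ℕ} {ξ : GaussianInt →* GaussianInt} {a : ℕ → O3} (hr : F.ResTr N ξ a)
    {l : ℕ} (hl : GoodP N l) : ∃ b, IsB ξ l b ∧ res3 (a l) = gi i9 b := by
  have : Fact l.Prime := ⟨hl.1⟩
  by_cases c : l % 4 = 3
  · exact ⟨0, ⟨hl.1, Or.inl ⟨c, rfl⟩⟩, by rw [hr.ine l hl c]; simp [gi]⟩
  · obtain ⟨x, y, e⟩ := Nat.Prime.sq_add_sq (p := l) c
    have h1 : (⟨x, y⟩ : GaussianInt).norm = l := by
      rw [Zsqrtd.norm_def, ← e]; push_cast; ring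
    have h2 : l % 2 = 1 := hl.1.eq_two_or_odd.resolve_left fun e =>
      hl.2 (e ▸ Dvd.dvd.mul_right (by norm_num) N)
    exact ⟨_, ⟨hl.1, Or.inr ⟨by omega, _, h1, rfl⟩⟩, hr.spl l _ hl h1⟩

theorem inTHE (X : Mdl) (hT : THETA) (hK : KAP) (hG : GRP) (hS : STEP) {N : ℕ}
    {ε : ZMod N →* GaussianInt} {M : GaussianInt} {ξ : GaussianInt →* GaussianInt} {a : ℕ → O3}
    (h : F.Hk N ε M ξ) (hr : F.ResTr N ξ a) : TW.InTHE X N a (TW.epsO ε) := by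
  classical
  intro j hj _ A
  obtain ⟨j, rfl⟩ : ∃ i, j = i + 1 := ⟨j - 1, by omega⟩
  have : NeZero N := ⟨h.pos.ne'⟩
  have lv : Lv N := ⟨h.pos, by exact_mod_cast (show ((4 : ℕ) : ℤ) ∣ N from h.lev ▸ dvd_mul_right _ _)⟩
  obtain ⟨fi, -, -, -, -, -, -, g2⟩ := hG N lv
  obtain ⟨-, g3, g4⟩ := g2 (TW.H4 N)
  have mid := g3 ⟨1, Or.inr (by simp)⟩
  have : (GH N (TW.H4 N)).FiniteIndex := Subgroup.finiteIndex_of_le mid.lo
  have m0 : 0 < 3 ^ (j + 1) := by positivity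
  obtain ⟨κ, hκ⟩ := hK N _ mid _ m0
  obtain ⟨c, hc, γ0, hγ0, h0⟩ := hT M ξ N (GH N (TW.H4 N))
    (fun e => h.pos.ne' (by
      have : (N : ℤ) = 0 := by rw [h.lev, e]; simp
      exact_mod_cast this)) h.per h.ii
    (h.lev ▸ dvd_rfl) fun γ ⟨h1, u, ⟨x, hx⟩, h2⟩ => ⟨h1, by
      rw [← eps_eq h, ← h2]
      rcases hx with rfl | rfl
      · rw [Units.val_pow_eq_pow_val, map_pow, h.eps4]
      · rw [Units.val_neg, neg_eq_neg_one_mul ((x ^ 4 : (ZMod N)ˣ) : ZMod N), map_mul, h.even,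
          Units.val_pow_eq_pow_val, map_pow, h.eps4, mul_one]⟩
  let r : k9 →+ ZMod (3 ^ (j + 1)) := (up3 j).comp (AddMonoidHom.mk' QuadraticAlgebra.re fun _ _ => rfl)
  let g9 := F.giH i9 i9_sq
  let cz : k9 → SL(2, ℤ) → ZMod (3 ^ (j + 1)) := fun z γ =>
    if γ ∈ GH N (TW.H4 N) then r (z * g9 (c γ)) else 0
  have e : ∀ z, ∀ γ ∈ GH N (TW.H4 N), cz z γ = r (z * g9 (c γ)) := fun z γ hγ => if_pos hγ
  have c1 : c 1 = 0 := by simpa using hc.add 1 (one_mem _) 1 (one_mem _)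
  have hp : ∀ z, Par (GH N (TW.H4 N)) (cz z) := fun z => by
    refine ⟨fun γ hγ δ hδ => ?_, fun g k hg => ?_, ?_, fun γ hγ => if_neg hγ⟩
    · rw [e _ _ (mul_mem hγ hδ), e _ _ hγ, e _ _ hδ, hc.add γ hγ δ hδ, map_add, mul_add, map_add]
    · rw [e _ _ hg, pT, hc.par g k hg, map_zero, mul_zero, map_zero]
    · by_cases hn : (-1 : SL(2, ℤ)) ∈ GH N (TW.H4 N)
      · have := hc.add _ hn _ hn
        rw [neg_mul_neg, one_mul, c1, eq_comm, add_self_eq_zero] at this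
        rw [e _ _ hn, this, map_zero, mul_zero, map_zero]
      · exact if_neg hn
  choose φ hφ using fun z => hκ.onto _ (hp z)
  refine ⟨AddMonoidHom.mk' φ fun z z' => hκ.ext fun γ hγ => ?_, ⟨(g9 (c γ0))⁻¹, fun h1 => ?_⟩,
    fun l hl z => hκ.ext fun γ hγ => ?_, fun u z => hκ.ext fun γ hγ => ?_⟩
  · rw [map_add, Pi.add_apply, hφ, hφ, hφ, e _ _ hγ, e _ _ hγ, e _ _ hγ, add_mul, map_add]
  · have h2 := congrFun (hφ (g9 (c γ0))⁻¹) γ0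
    rw [show φ (g9 (c γ0))⁻¹ = 0 from h1, map_zero, e _ _ hγ0,
      inv_mul_cancel₀ (show g9 (c γ0) ≠ 0 from gi9_ne h0)] at h2
    exact up3_one j h2.symm
  · have lN : ¬ l ∣ N := fun c => hl.2 (c.mul_left 6)
    obtain ⟨d, hd⟩ := IsDel.exists 1 N l (by
      rw [one_mul]; exact Nat.isCoprime_iff_coprime.2 ((hl.1.coprime_iff_not_dvd).2 lN))
    obtain ⟨s, g, hs⟩ := (hS N l h.pos hl.1).1 lN d hd γ hγ.1
    have hg : ∀ i, g i ∈ GH N (TW.H4 N) := fun i => by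
      obtain ⟨-, u, hu, h2⟩ := hγ
      exact ⟨(hs i).2.1, u, hu, h2.trans
        ((ZMod.intCast_eq_intCast_iff_dvd_sub _ _ N).2 (hs i).2.2)⟩
    obtain ⟨b, hb, hb'⟩ := exists_isB hr hl
    show κ (A.T l (φ z)) γ = κ (φ (res3 (a l) * z)) γ
    refine (hκ.prod m0 X _ (al_pos hl.1.pos d) (A.T_rep l hl.1 lN d hd) (φ z) hγ s g hg
      fun i => (hs i).1).trans ?_
    rw [hφ, hφ, e _ _ hγ, Finset.sum_congr rfl fun i _ => e z _ (hg i), ← map_sum, ← Finset.mul_sum,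
      ← map_sum, hc.hec l b hb d hd γ hγ s g hg fun i => (hs i).1, map_mul g9, hb', mul_left_comm,
      mul_assoc]
    rfl
  · obtain ⟨d, hd⟩ := IsDel.exists 1 N ((u : ZMod N).val : ℕ) (by
      rw [one_mul]; exact Nat.isCoprime_iff_coprime.2 (ZMod.val_coe_unit_coprime u))
    have hu : (u : ZMod N) = ((d 1 1 : ℤ) : ZMod N) := by
      rw [← (ZMod.intCast_eq_intCast_iff_dvd_sub _ _ N).2 hd.2.2, Int.cast_natCast,
        ZMod.natCast_zmod_val]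
    have h1 := g4 d hd.1 γ hγ
    show κ (A.dia u (φ z)) γ = κ (φ (res3 (TW.epsO ε u) * z)) γ
    refine (hκ.pg m0 X (A.dia_rep u d hd.1 hu) (φ z) hγ h1).trans ?_
    rw [hφ, hφ, e _ _ hγ, e _ _ h1,
      hc.dia d hd.1 γ hγ h1, map_mul g9, TW.res3_epsO, hu, eps_eq h, mul_left_comm, mul_assoc]
    rfl

end Vale.Agent.P027M.Th
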