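import Vale.Agent.P027M.Th.KDefs
import Vale.Agent.P022.H218.L3.Gal

/-! # P027 route M, block Th: the complex level field is a constant field extension -/

set_option linter.all false

open UpperHalfPlane Matrix
open scoped MatrixGroups IntermediateField

noncomputable section

namespace Vale.Agent.P027M.Th

open Vale.Agent.P022 Vale.Agent.P022.H218.L3 Vale.Agent.P022.H231.L3 Vale.Agent.P022.H236.L3
  Vale.Agent.P022.H542.L3 Vale.Agent.P019P P025H816 P025H492 Vale.Agent.P027M.M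

namespace Kbc

theorem cv_MF {Γ : Subgroup SL(2, ℤ)} (x : L Γ) : cv (x : FF) ∈ MF Γ := by
  obtain ⟨N', hN', h1, -⟩ := cv_mem (x : FF)
  have : NeZero N' := ⟨hN'.ne'⟩
  exact mem_MF_of_fixed Γ h1 x.2

/-- the inclusion of the algebraic level field in the complex one -/
def jL (Γ : Subgroup SL(2, ℤ)) : L Γ →+* MF Γ :=
  ((cv : FF →+* Mer).comp ((L Γ).val : L Γ →+* FF)).codRestrict (MF Γ) fun x => cv_MF x

theorem jL_coe {Γ : Subgroup SL(2, ℤ)} (x : L Γ) : ((jL Γ x : MF Γ) : Mer) = cv (x : FF) := rfl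

theorem t_ne (X : Mdl) (a : ℂ) : cv X.t ≠ algebraMap ℂ Mer a := by
  intro e
  obtain ⟨P, hP, h1, h2, -⟩ := X.hol
  rw [e, ← inc_const] at h1
  apply h2 UpperHalfPlane.I
  rw [← inc_injective _ _ h1]
  exact deriv_const _ _

theorem mem_adj {Γ : Subgroup SL(2, ℤ)} (X : Mdl) (p : MF Γ) (hp : (p : Mer) = cv X.t)
    (y : MF Γ) : y ∈ ℂ⟮p⟯ ↔ (y : Mer) ∈ MF G0 := by
  rw [← IntermediateField.mem_lift, IntermediateField.lift_adjoin_simple, hp, X.baseC]

theorem fin_abs {k R A B : Type*} [Field k] [Field R] [Field A] [Field B] [Algebra k A]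
    [Algebra R B] [Module.Finite R B] (φ : R →+* A) (i : A →+* B)
    (hc : ∀ a, i (φ a) = algebraMap R B a) (F : IntermediateField k A) (m : ∀ y, φ y ∈ F) :
    FiniteDimensional F A := by
  let _ : Algebra R A := φ.toAlgebra
  let f : A →ₗ[R] B :=
    { toFun := i
      map_add' := map_add i
      map_smul' := fun a x => by
        rw [Algebra.smul_def, map_mul, RingHom.id_apply, Algebra.smul_def, ← hc]
        rfl }
  have : Module.Finite R A := Module.Finite.of_injective f i.injective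
  let _ : Algebra R F := (φ.codRestrict _ m).toAlgebra
  have : IsScalarTower R F A := .of_algebraMap_eq fun _ => rfl
  exact Module.Finite.of_restrictScalars_finite R _ _

end Kbc

open Kbc

theorem kbc : Spec_KBC := by
  intro X hG hF N Γ h
  obtain ⟨hfi, hn, hm, -⟩ := hG N h.lv
  have hle : MF Γ ≤ MF (Gt N) := MF_mono h.lo
  let p : MF Γ := jL Γ (X.tL h.hi)
  have hp : (p : Mer) = cv X.t := rfl
  let p' : MF (Gt N) := ⟨cv X.t, hle p.2⟩
  have hp' : (p' : Mer) = cv X.t := rfl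
  obtain ⟨g1, g2, g3, -⟩ := galois (Γ := G0) (Γ' := Gt N) (fun γ _ => hn γ) p' X.baseC
  let i : MF Γ →+* MF (Gt N) := (IntermediateField.inclusion hle).toRingHom
  have hi : ∀ x, ((i x : MF (Gt N)) : Mer) = x := fun _ => rfl
  refine ⟨⟨inferInstance, p, ?_, ?_⟩, jL Γ, jL_coe, fun a => Subtype.ext (cv_alg a), ?_⟩
  · intro ha
    obtain ⟨a, e⟩ := minpoly.mem_range_of_degree_eq_one _ _
      (IsAlgClosed.degree_eq_one_of_irreducible ℂ (minpoly.irreducible ha.isIntegral))
    exact t_ne X a (congrArg Subtype.val e).symm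
  · have m0 : ∀ y : ℂ⟮p'⟯, ((y : MF (Gt N)) : Mer) ∈ MF G0 := fun y => (mem_adj X p' hp' _).1 y.2
    let φ : ℂ⟮p'⟯ →+* MF Γ :=
      (((MF (Gt N)).val : MF (Gt N) →+* Mer).comp (algebraMap ℂ⟮p'⟯ (MF (Gt N)))).codRestrict
        (MF Γ) fun y => MF_mono h.hi (m0 y)
    have m : ∀ y, φ y ∈ ℂ⟮p⟯ := fun y => (mem_adj X p hp _).2 (m0 y)
    exact fin_abs φ i (fun _ => Subtype.ext rfl) _ m
  · intro S hC hL
    have hC' : ∀ a : ℂ, algebraMap ℂ (MF (Gt N)) a ∈ S.map i := fun a =>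
      ⟨algebraMap ℂ (MF Γ) a, hC a, Subtype.ext rfl⟩
    have hle' : ℂ⟮p'⟯ ≤ (S.map i).toIntermediateField hC' := by
      rw [IntermediateField.adjoin_simple_le_iff]
      exact ⟨p, hL _, Subtype.ext rfl⟩
    let K' : IntermediateField ℂ⟮p'⟯ (MF (Gt N)) :=
      (S.map i).toIntermediateField fun a => hle' a.2
    rw [eq_top_iff]
    intro x _
    have hx : i x ∈ K' := by
      rw [← IsGalois.fixedField_fixingSubgroup K', IntermediateField.mem_fixedField_iff]
      intro g hg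
      obtain ⟨γ, hγ, e⟩ := g3 g
      have hm : γ⁻¹ ∈ Γ := by
        refine hF.2.1 N Γ h γ⁻¹ (G0.inv_mem hγ) fun y hy => cv_inj ?_
        have e1 := (IntermediateField.mem_fixingSubgroup_iff K' g).1 hg (i (jL Γ ⟨y, hy⟩))
          ⟨_, hL _, rfl⟩
        have e2 := e (i (jL Γ ⟨y, hy⟩))
        rw [e1] at e2
        rw [Mdl.pg, X.pb_coe, pbz_SL, inv_inv]
        exact e2.symm
      refine Subtype.ext ?_
      rw [e, hi]
      exact act_eq_self x.2 (by simpa using Γ.inv_mem hm)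
    obtain ⟨y, hy, e⟩ := hx
    rwa [← i.injective e]

end Vale.Agent.P027M.Th
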