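import Vale.Agent.P027M.Th.KDefs

/-! # P027 route M, block Th: row KORD -/

set_option linter.all false

open UpperHalfPlane Matrix
open scoped MatrixGroups IntermediateField

noncomputable section

namespace Vale.Agent.P027M.Th

open Vale.Agent.P022 Vale.Agent.P022.H218.L3 Vale.Agent.P022.H231.L3 Vale.Agent.P022.H236.L3
  Vale.Agent.P022.H542.L3 Vale.Agent.P019P P025H816 P025H492 Vale.Agent.P027M.M

namespace KordP

theorem order_sb (m : ℕ) (hm : 0 < m) (x : LS) : (sb m hm x).order = m * x.order := by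
  by_cases hx : x = 0
  · subst hx
    rw [map_zero, HahnSeries.order_zero, mul_zero]
  have hy : sb m hm x ≠ 0 := (_root_.map_ne_zero _).2 hx
  apply le_antisymm
  · apply HahnSeries.order_le_of_coeff_ne_zero
    rw [coeff_sb_mul]
    exact HahnSeries.coeff_order_eq_zero.not.2 hx
  · have h1 : (sb m hm x).coeff (sb m hm x).order ≠ 0 := HahnSeries.coeff_order_eq_zero.not.2 hy
    by_cases h : (m : ℤ) ∣ (sb m hm x).order
    · obtain ⟨k, hk⟩ := h
      rw [hk, coeff_sb_mul] at h1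
      rw [hk]
      exact mul_le_mul_of_nonneg_left (HahnSeries.order_le_of_coeff_ne_zero h1) (by positivity)
    · exact absurd (coeff_sb_of_not_dvd _ _ _ _ h) h1

theorem exM_pow {N : ℕ} {s : LS} {x : Mer} (h : ExM N s x) (m : ℕ) : ExM N (s ^ m) (x ^ m) := by
  induction m with
  | zero =>
    have := ExM.const N 1
    rwa [map_one, map_one, ← pow_zero s, ← pow_zero x] at this
  | succ m ih => rw [pow_succ, pow_succ]; exact ih.mul h

theorem pT_mul (g : SL(2, ℤ)) (a k : ℤ) : pT g (a * k) = pT g a ^ k := by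
  rw [pT, pT, conj_zpow, _root_.zpow_mul]

theorem act_zpow {p : SL(2, ℤ)} {y : Mer} (h : act p y = y) (k : ℤ) : act (p ^ k) y = y := by
  have h1 : p ∈ (MulAction.stabilizer (Mer ≃ₐ[ℂ] Mer) y).comap act := h
  exact (Subgroup.zpow_mem _ h1 k : p ^ k ∈ (MulAction.stabilizer (Mer ≃ₐ[ℂ] Mer) y).comap act)

/-- the expansion of a root at a cusp -/
theorem ex_root {Γ : Subgroup SL(2, ℤ)} {m : ℕ} (hm : 0 < m) {y : Mer} (hy : y ≠ 0)
    (H : y ^ m ∈ MF Γ) (g : SL(2, ℤ)) {n : ℕ} (hn : 0 < n) (h1 : pT g n ∈ Γ)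
    (h2 : act (pT g n) y = y) : ∃ s, ExM n s (act g⁻¹ y) := by
  have : NeZero n := ⟨hn.ne'⟩
  let Γ1 : Subgroup SL(2, ℤ) := Γ ⊓ (MulAction.stabilizer (Mer ≃ₐ[ℂ] Mer) y).comap act
  have h3 : y ∈ MF Γ1 := H587.L3.mem_of_trivial hm hy (MF_mono inf_le_left H) fun γ => by
    rw [MonoidHom.one_apply, Units.val_one, map_one, one_mul]
    exact (Γ1.inv_mem γ.2).2
  have h4 : act g⁻¹ y ∈ MF (Γ1.comap (MulAut.conj g).toMonoidHom) :=
    act_mem g⁻¹ (fun γ hγ => by rw [inv_inv]; exact hγ) h3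
  refine MF_le_EF ?_ h4
  have h5 : pT g n ∈ Γ1 := ⟨h1, h2⟩
  rw [pT, zpow_natCast] at h5
  exact h5

theorem ze_pow {h m : ℕ} (hh : 0 < h) (hm : 0 < m) : ze (h * m * 1) h ^ (m : ℤ) = 1 := by
  have h1 : (h : ℂ) ≠ 0 := by exact_mod_cast hh.ne'
  have h2 : (m : ℂ) ≠ 0 := by exact_mod_cast hm.ne'
  rw [zpow_natCast, ze, ← Complex.exp_nat_mul, ← Complex.exp_two_pi_mul_I]
  congr 1
  push_cast
  field_simp

theorem t_mem (X : Mdl) {Γ : Subgroup SL(2, ℤ)} (h : Γ ≤ G0) : cv X.t ∈ MF Γ :=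
  MF_mono h (X.baseC ▸ IntermediateField.mem_adjoin_simple_self ℂ (cv X.t))

theorem t_nc (X : Mdl) (a : ℂ) : cv X.t ≠ algebraMap ℂ Mer a := by
  intro e
  obtain ⟨P, hP, h1, h2, -⟩ := X.hol
  rw [e, ← inc_const] at h1
  apply h2 UpperHalfPlane.I
  rw [← inc_injective _ _ h1]
  exact deriv_const _ _

theorem fix (hE : EXP) {Γ : Subgroup SL(2, ℤ)} {m : ℕ} (hm : 0 < m) {y : Mer} (hy : y ≠ 0)
    (H : y ^ m ∈ MF Γ) (g : SL(2, ℤ)) {h : ℕ} (hh : 0 < h) (h1 : pT g h ∈ Γ)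
    (hd : ∀ s, ExM h s (act g⁻¹ (y ^ m)) → (m : ℤ) ∣ s.order) : act (pT g h) y = y := by
  obtain ⟨φ, hφ, -, hc⟩ := H587.L3.exists_char hm hy fun γ hγ => act_eq_self H hγ
  have hN : 0 < h * m := Nat.mul_pos hh hm
  have e1 : pT g (h * m : ℕ) = pT g h ^ m := by rw [Nat.cast_mul, pT_mul, zpow_natCast]
  have key : ∀ γ : Γ, φ γ = 1 → act (γ : SL(2, ℤ)) y = y := fun γ h0 => by
    have h2 := hc γ⁻¹
    rwa [map_inv φ, h0, inv_one, Units.val_one, map_one, one_mul, Subgroup.coe_inv, inv_inv] at h2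
  have e3 := key (⟨_, h1⟩ ^ m) (by
    rw [map_pow, ← MonoidHom.pow_apply, hφ, MonoidHom.one_apply])
  rw [Subgroup.coe_pow] at e3
  obtain ⟨s, hs⟩ := ex_root hm hy H g hN (by rw [e1]; exact pow_mem h1 m) (by
    rw [e1]
    exact e3)
  obtain ⟨s', hs'⟩ := ex_root one_pos (pow_ne_zero m hy) (by rwa [pow_one]) g hh h1
    (act_eq_self H h1)
  have h2 := exM_pow hs m
  rw [← map_pow] at h2
  have h3 := congrArg HahnSeries.order ((exM_period hm hh.ne' hs').unique hN.ne' h2)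
  rw [order_sb, HahnSeries.order_pow, nsmul_eq_mul] at h3
  have h4 : s'.order = s.order := mul_left_cancel₀ (by exact_mod_cast hm.ne') h3
  obtain ⟨k, hk⟩ := h4 ▸ hd s' hs'
  have s0 : s ≠ 0 := by
    rintro rfl
    have h5 := ExM.const (h * m) 0
    rw [map_zero, map_zero] at h5
    exact hy ((_root_.map_eq_zero _).1 (hE.1 _ _ _ _ hN hs h5))
  have eT : (!![((1 : ℕ) : ℤ), (h : ℤ); 0, ((1 : ℕ) : ℤ)] : M2) =
      ((ModularGroup.T ^ (h : ℤ) : SL(2, ℤ)) : M2) := by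
    rw [ModularGroup.coe_T_zpow, Nat.cast_one]
  have h5 := hE.2.1 (h * m) 1 1 h one_pos one_pos hN (eT ▸ SL_pos _) s _ hs
  rw [pbz_congr eT _ (SL_pos _), pbz_SL, ← AlgEquiv.mul_apply, ← map_mul] at h5
  have e2 : (ModularGroup.T ^ (h : ℤ))⁻¹ * g⁻¹ = g⁻¹ * (pT g h)⁻¹ := by
    rw [pT]; group
  have h6 : act (pT g h)⁻¹ y = _ := hc ⟨_, h1⟩
  rw [e2, map_mul, AlgEquiv.mul_apply, h6, map_mul, AlgEquiv.commutes] at h5
  have h7 := (ExM.const (h * m) (φ ⟨_, h1⟩ : ℂ)).mul hs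
  rw [← mul_one (h * m)] at h7
  have h8 := congrArg (fun z : LS => z.coeff (((1 : ℕ) : ℤ) * s.order))
    (h5.unique (by rw [mul_one]; exact hN.ne') h7)
  simp only [coeff_sb_mul, coeff_rs] at h8
  rw [Nat.cast_one, one_mul, HahnSeries.C_mul_eq_smul, HahnSeries.coeff_smul, smul_eq_mul] at h8
  have h9 := mul_right_cancel₀ (HahnSeries.coeff_order_eq_zero.not.2 s0) h8
  rw [hk, _root_.zpow_mul, ze_pow hh hm, _root_.one_zpow] at h9
  exact key ⟨_, h1⟩ (Units.ext h9.symm)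

end KordP

open KordP in
theorem kord : Spec_KORD := by
  intro X _ hE hA hC N Γ hM _ m hm f hf
  obtain ⟨a1, a2⟩ := hA N Γ hM
  obtain ⟨c1, c2, c3⟩ := hC N Γ hM
  have hf' : (f : Mer) ≠ 0 := fun h => hf (Subtype.ext h)
  constructor
  · intro h
    obtain ⟨y, hy, e⟩ := H587.L3.exists_root hm hf' fun g k hg hk g0 k0 e τ => by
      obtain ⟨P, hP⟩ := a1 τ
      rw [← hP f g k hg hk g0 k0 e]
      exact h P
    refine ⟨y, e, fun g j hj => ?_⟩
    obtain ⟨w, hw⟩ := c1 g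
    obtain ⟨P, hP⟩ := c2 g w hw
    obtain ⟨k, rfl⟩ := (hw.2 j).1 hj
    rw [pT_mul]
    refine act_zpow (fix hE hm hy (e ▸ f.2) g hw.1 ((hw.2 w).2 dvd_rfl) fun s hs => ?_) k
    rw [e] at hs
    rw [← hP f s hs]
    exact h P
  · rintro ⟨y, e, h⟩ P
    have hy : y ≠ 0 := by
      rintro rfl
      exact hf' (by rw [← e, zero_pow hm.ne'])
    let t : MF Γ := ⟨cv X.t, t_mem X hM.hi⟩
    have cusp : (0 < ord P (t - 2) ∨ 0 < ord P (t + 2) ∨ ord P t < 0) → (m : ℤ) ∣ ord P f := by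
      intro hc
      obtain ⟨γ, w, hw, hP⟩ := c3 P t rfl hc
      have h1 := (hw.2 w).2 dvd_rfl
      obtain ⟨s, hs⟩ := ex_root hm hy (e ▸ f.2) γ hw.1 h1 (h _ _ h1)
      have h2 := exM_pow hs m
      rw [← map_pow, e] at h2
      rw [hP f _ h2, HahnSeries.order_pow, nsmul_eq_mul]
      exact dvd_mul_right _ _
    by_cases h0 : ord P t < 0
    · exact cusp (Or.inr (Or.inr h0))
    obtain ⟨c, hc | hc⟩ := exists_cst P ((mem_iff_ord P t).2 (Or.inr (not_lt.1 h0)))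
    · exact absurd (congrArg Subtype.val hc) (t_nc X c)
    by_cases h1 : c = 2
    · rw [h1, map_ofNat] at hc
      exact cusp (Or.inl hc)
    by_cases h2 : c = -2
    · rw [h2, map_neg, map_ofNat, sub_neg_eq_add] at hc
      exact cusp (Or.inr (Or.inl hc))
    obtain ⟨θ, hθ⟩ := a2 P t c rfl h1 h2 hc
    rw [hθ, ← e, map_pow, HahnSeries.order_pow, nsmul_eq_mul]
    exact dvd_mul_right _ _

end Vale.Agent.P027M.Th
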