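import Vale.Agent.P027M.Th.KDefs
import Vale.Agent.P027M.M.Pla

/-! # P027 route M, block Th: the affine places of the complex level fields -/

set_option autoImplicit false

open UpperHalfPlane Matrix
open scoped MatrixGroups IntermediateField

noncomputable section

namespace Vale.Agent.P027M.Th

open Vale.Agent.P022 Vale.Agent.P022.H218.L3 Vale.Agent.P022.H231.L3 Vale.Agent.P022.H236.L3
  Vale.Agent.P022.H542.L3 Vale.Agent.P019P P025H816 P025H492 Vale.Agent.P027M.M

namespace Kpa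

/-- two zeros of `p` in a Galois extension of the field generated by `p` are conjugate -/
theorem conj_of_zero {k F : Type*} [Field k] [Field F] [Algebra k F] [CFF k F] {p : F}
    [FiniteDimensional k⟮p⟯ F] [IsGalois k⟮p⟯ F] {P Q : Plk k F} (hP : 0 < ord P p)
    (hQ : 0 < ord Q p) : ∃ σ : F ≃ₐ[k⟮p⟯] F, ∀ z, ord Q z = ord P (σ z) := by
  have h1 : Transcendental k (IntermediateField.AdjoinSimple.gen k p) := by
    rw [← transcendental_algebraMap_iff (A := F) (algebraMap k⟮p⟯ F).injective]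
    exact (finite_of_notMem (nc_of_ord (P := P) hP.ne')).1
  have : CFF k k⟮p⟯ := cff_down (L := F) h1
  have h2 : k⟮IntermediateField.AdjoinSimple.gen k p⟯ = (⊤ : IntermediateField k k⟮p⟯) := by
    apply IntermediateField.lift_injective
    rw [IntermediateField.lift_adjoin_simple, IntermediateField.lift_top]
    rfl
  have e : down k⟮p⟯ P = down k⟮p⟯ Q :=
    Pla.zero_unique h2 ((ord_up_pos_iff P _).1 hP) ((ord_up_pos_iff Q _).1 hQ)
  obtain ⟨σ, rfl⟩ := exists_conj_eq e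
  exact ⟨σ.symm, fun z => ord_conj' σ P z⟩

/-- a zero of `x` is the restriction of a conjugate of a given simple zero upstairs -/
theorem ord_of_simple {k K F : Type*} [Field k] [Field K] [Field F] [Algebra k K] [Algebra k F]
    [CFF k K] [CFF k F] (j : K →ₐ[k] F) {x : K} [FiniteDimensional k⟮j x⟯ F] [IsGalois k⟮j x⟯ F]
    {P : Plk k K} (hP : 0 < ord P x) {Q0 : Plk k F} (h0 : ord Q0 (j x) = 1) :
    ∃ σ : F ≃ₐ[k⟮j x⟯] F, ∀ z : K, ord P z = ord Q0 (σ (j z)) := by
  let _ : Algebra K F := j.toRingHom.toAlgebra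
  have : IsScalarTower k K F := IsScalarTower.of_algebraMap_eq fun a => (j.commutes a).symm
  have : FiniteDimensional K F :=
    finite_of_transcendental (finite_of_notMem (nc_of_ord (P := P) hP.ne')).1
  obtain ⟨Q, rfl⟩ := exists_over (L := F) P
  obtain ⟨σ, hσ⟩ := conj_of_zero (P := Q0) (Q := Q) (p := j x) (by rw [h0]; exact one_pos)
    ((ord_up_pos_iff Q x).2 hP)
  have h1 : ord Q (algebraMap K F x) = 1 := by
    have e3 : σ (j x) = j x := σ.commutes (IntermediateField.AdjoinSimple.gen k (j x))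
    rw [hσ]
    exact (congrArg (ord Q0) e3).trans h0
  refine ⟨σ, fun z => ?_⟩
  have e4 := ord_algebraMap Q z
  rw [ram_eq_one_of_exists h1, Nat.cast_one, one_mul, hσ] at e4
  exact e4.symm

/-- the Hauptmodul has every level below `Γ₀(4)` -/
theorem t_mem (X : Mdl) {Γ : Subgroup SL(2, ℤ)} (h : Γ ≤ G0) : cv X.t ∈ MF Γ :=
  MF_mono h (X.baseC ▸ IntermediateField.mem_adjoin_simple_self ℂ (cv X.t))

theorem base_sub (X : Mdl) (a : ℂ) : MF G0 = ℂ⟮cv X.t - algebraMap ℂ Mer a⟯ := by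
  rw [X.baseC]
  apply le_antisymm
  · rw [IntermediateField.adjoin_simple_le_iff]
    have := add_mem (IntermediateField.mem_adjoin_simple_self ℂ (cv X.t - algebraMap ℂ Mer a))
      (IntermediateField.algebraMap_mem _ a)
    rwa [sub_add_cancel] at this
  · rw [IntermediateField.adjoin_simple_le_iff]
    exact sub_mem (IntermediateField.mem_adjoin_simple_self _ _)
      (IntermediateField.algebraMap_mem _ a)

/-- the place of a point, from its Taylor map -/
theorem place_of_theta (X : Mdl) {Γ : Subgroup SL(2, ℤ)} (h : Γ ≤ G0) [CFF ℂ (MF Γ)]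
    (θ : Mer →ₐ[ℂ] LS) (a : ℂ) (h1 : θ (cv X.t) = HahnSeries.C a + HahnSeries.single 1 1) :
    (θ (cv X.t - algebraMap ℂ Mer a)).order = 1 ∧
      ∃ Q : Plk ℂ (MF Γ), ∀ x : MF Γ, ord Q x = (θ (x : Mer)).order := by
  have hc : ∀ c : ℂ, θ (algebraMap ℂ Mer c) = HahnSeries.C c := fun c => by
    rw [θ.commutes, algMap_ls]
  have ht : (θ (cv X.t - algebraMap ℂ Mer a)).order = 1 := by
    rw [map_sub, hc, h1, add_sub_cancel_left, HahnSeries.order_single one_ne_zero]
  refine ⟨ht, ?_⟩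
  let φ : MF Γ →+* LS := (θ : Mer →+* LS).comp (MF Γ).val
  exact Pla.exists_place (k := ℂ) φ
    (fun c => by
      show (θ (algebraMap ℂ Mer c)).order = 0
      rw [hc, HahnSeries.order_C])
    (π := ⟨cv X.t, t_mem X h⟩ - algebraMap ℂ (MF Γ) a) ht

end Kpa

open Kpa

theorem kpa : Spec_KPA := by
  intro X hG hB N Γ h _
  obtain ⟨f, hf, e, hd, -, hs⟩ := X.hol
  refine ⟨fun τ => ?_, fun P t a ht h2 h2' hP => ?_⟩
  · obtain ⟨θ, h1, h3⟩ := H406.L3.exists_theta hf τ (hd τ)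
    obtain ⟨-, Q, hQ⟩ := place_of_theta X h.hi θ (f τ) (by rw [e]; exact h1)
    refine ⟨Q, fun x g k hg hk g0 k0 hx => ?_⟩
    have g1 : θ (inc g hg) ≠ 0 := (_root_.map_ne_zero θ).2 fun z => g0 ((inc_eq_zero hg).1 z)
    have k1 : θ (inc k hk) ≠ 0 := (_root_.map_ne_zero θ).2 fun z => k0 ((inc_eq_zero hk).1 z)
    have e1 : θ (x : Mer) * θ (inc k hk) = θ (inc g hg) := by
      rw [hx, map_div₀, div_mul_cancel₀ _ k1]
    have x1 : θ (x : Mer) ≠ 0 := fun z => g1 (by rw [← e1, z, zero_mul])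
    have e2 := congrArg HahnSeries.order e1
    rw [HahnSeries.order_mul x1 k1, h3 g hg g0, h3 k hk k0] at e2
    rw [hQ]
    omega
  · obtain ⟨hfi, hn, hm, -⟩ := hG N h.lv
    obtain ⟨c1, -⟩ := hB N (Gt N) hm
    obtain ⟨τ, hτ⟩ := hs a h2 h2'
    obtain ⟨θ, h1, -⟩ := H406.L3.exists_theta hf τ (hd τ)
    obtain ⟨ho, Q0, hQ0⟩ := place_of_theta X hm.hi θ a (by rw [e, ← hτ]; exact h1)
    let j : MF Γ →ₐ[ℂ] MF (Gt N) := IntermediateField.inclusion (MF_mono h.lo)
    have hp : ((j (t - algebraMap ℂ (MF Γ) a) : MF (Gt N)) : Mer) = cv X.t - algebraMap ℂ Mer a := by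
      rw [← ht]
      rfl
    obtain ⟨f1, f2, f3, -⟩ := galois (Γ := G0) (fun γ _ => hn γ) (j (t - algebraMap ℂ (MF Γ) a))
      (by rw [hp]; exact base_sub X a)
    obtain ⟨σ, hσ⟩ := ord_of_simple j hP (Q0 := Q0) (by rw [hQ0, hp, ho])
    obtain ⟨γ, -, hγ⟩ := f3 σ
    refine ⟨(θ : Mer →+* LS).comp (act γ : Mer ≃ₐ[ℂ] Mer), fun x => ?_⟩
    rw [hσ, hQ0, hγ]
    rfl

end Vale.Agent.P027M.Th
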