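import Vale.Agent.P027M.Th.KDefs
import Vale.Agent.P027M.M.Pla

/-! # P027 route M, block Th, row KPC: the cusps of the complex level field -/

set_option linter.all false

open UpperHalfPlane Matrix
open scoped MatrixGroups IntermediateField

noncomputable section

namespace Vale.Agent.P027M.Th

open Vale.Agent.P022 Vale.Agent.P022.H218.L3 Vale.Agent.P022.H231.L3 Vale.Agent.P022.H236.L3
  Vale.Agent.P022.H542.L3 Vale.Agent.P019P P025H816 P025H492 Vale.Agent.P027M.M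

namespace Kpc

theorem order_sb (m : ℕ) (hm : 0 < m) (x : LS) : (sb m hm x).order = m * x.order := by
  by_cases hx : x = 0
  · rw [hx, map_zero, HahnSeries.order_zero, mul_zero]
  have hy : sb m hm x ≠ 0 := (_root_.map_ne_zero _).2 hx
  apply le_antisymm
  · apply HahnSeries.order_le_of_coeff_ne_zero
    rw [coeff_sb_mul]
    exact HahnSeries.coeff_order_eq_zero.not.2 hx
  · have h1 : (sb m hm x).coeff (sb m hm x).order ≠ 0 := HahnSeries.coeff_order_eq_zero.not.2 hy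
    by_cases h : (m : ℤ) ∣ (sb m hm x).order
    · obtain ⟨k, hk⟩ := h
      rw [hk, coeff_sb_mul] at h1
      rw [hk]
      exact mul_le_mul_of_nonneg_left (HahnSeries.order_le_of_coeff_ne_zero h1)
        (Int.natCast_nonneg m)
    · exact absurd (coeff_sb_of_not_dvd _ _ _ _ h) h1

theorem pT_mem (hG : GRP) {N : ℕ} {Γ : Subgroup SL(2, ℤ)} (h : Mid N Γ) (γ : SL(2, ℤ)) :
    pT γ N ∈ Γ := by
  obtain ⟨-, hn, -, -, hT, -⟩ := hG N h.lv
  unfold pT
  rw [zpow_natCast]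
  exact h.lo (hn γ _ hT)

theorem wid {N : ℕ} (hN : 0 < N) {Γ : Subgroup SL(2, ℤ)} {γ : SL(2, ℤ)} (h : pT γ N ∈ Γ) :
    ∃ w, Wid Γ γ w := by
  let S : AddSubgroup ℤ :=
    { carrier := {j | pT γ j ∈ Γ}
      zero_mem' := by
        show pT γ 0 ∈ Γ
        unfold pT
        rw [zpow_zero, mul_one, mul_inv_cancel]
        exact Γ.one_mem
      add_mem' := by
        intro a b ha hb
        have e : pT γ (a + b) = pT γ a * pT γ b := by
          unfold pT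
          rw [_root_.zpow_add]
          group
        show pT γ (a + b) ∈ Γ
        rw [e]
        exact Γ.mul_mem ha hb
      neg_mem' := by
        intro a ha
        have e : pT γ (-a) = (pT γ a)⁻¹ := by
          unfold pT
          group
        show pT γ (-a) ∈ Γ
        rw [e]
        exact Γ.inv_mem ha }
  obtain ⟨a, ha⟩ := Int.subgroup_cyclic S
  have key : ∀ j : ℤ, pT γ j ∈ Γ ↔ (a.natAbs : ℤ) ∣ j := fun j => by
    rw [show pT γ j ∈ Γ ↔ j ∈ S from Iff.rfl, ha, AddSubgroup.mem_closure_singleton,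
      Int.natAbs_dvd]
    exact ⟨fun ⟨n, e⟩ => ⟨n, by rw [← e, smul_eq_mul, mul_comm]⟩,
      fun ⟨n, e⟩ => ⟨n, by rw [e, smul_eq_mul, mul_comm]⟩⟩
  refine ⟨a.natAbs, Nat.pos_of_ne_zero fun e => ?_, key⟩
  have := (key N).1 h
  rw [e, Nat.cast_zero, zero_dvd_iff] at this
  omega

/-- the expansion at a cusp -/
theorem exists_exp {Γ : Subgroup SL(2, ℤ)} {γ : SL(2, ℤ)} {w : ℕ} (h : Wid Γ γ w) :
    ∃ φ : MF Γ →+* LS, ∀ x : MF Γ, ExM w (φ x) (act γ⁻¹ (x : Mer)) := by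
  haveI : NeZero w := ⟨h.1.ne'⟩
  have hT : ModularGroup.T ^ w ∈ Γ.comap (MulAut.conj γ).toMonoidHom := by
    have := (h.2 w).2 dvd_rfl
    unfold pT at this
    rwa [zpow_natCast] at this
  have hm : ∀ x : MF Γ, act γ⁻¹ (x : Mer) ∈ EF w := fun x =>
    MF_le_EF hT (act_mem γ⁻¹ (fun g hg => by rw [inv_inv]; exact hg) x.2)
  let ψ : MF Γ →+* EF w :=
    (((act γ⁻¹ : Mer ≃ₐ[ℂ] Mer) : Mer →+* Mer).comp ((MF Γ).val : MF Γ →+* Mer)).codRestrict
      (EF w) hm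
  exact ⟨((tex w : EF w →ₐ[ℂ] LS) : EF w →+* LS).comp ψ, fun x => tex_spec (ψ x)⟩

theorem two (hW : KWID) {N : ℕ} {Γ : Subgroup SL(2, ℤ)} (h : Mid N Γ) [CFF ℂ (MF Γ)]
    (j : L Γ →+* MF Γ) (hj : ∀ x : L Γ, ((j x : MF Γ) : Mer) = cv (x : FF)) (γ : SL(2, ℤ)) (w : ℕ)
    (hw : Wid Γ γ w) : ∃ P : Plk ℂ (MF Γ), CuspC γ w P := by
  obtain ⟨φ, hφ⟩ := exists_exp hw
  obtain ⟨x, s, hs, h1⟩ := hW N Γ h γ w hw
  obtain ⟨Q, hQ⟩ := Pla.exists_place (k := ℂ) φ (π := j x) (fun c => by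
    have e := hφ (algebraMap ℂ (MF Γ) c)
    rw [show ((algebraMap ℂ (MF Γ) c : MF Γ) : Mer) = algebraMap ℂ Mer c from rfl,
      AlgEquiv.commutes] at e
    rw [e.unique hw.1.ne' (ExM.const w c), HahnSeries.order_C]) (by
    have e := hφ (j x)
    rw [hj] at e
    rw [e.unique hw.1.ne' hs, h1])
  exact ⟨Q, fun y r hr => by rw [hQ, (hφ y).unique hw.1.ne' hr]⟩

theorem same {C K C' K' : Type*} [Field C] [Field K] [Algebra C K] [CFF C K] [Field C'] [Field K']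
    [Algebra C' K'] [CFF C' K'] {i : C →+* C'} {j : K →+* K'} (h : IsBC i j) {P0 : Plk C K}
    {P P' : Plk C' K'} {a b c d : ℤ} (ha : 0 < a) (hb : 0 < b) (hc : 0 < c) (hd : 0 < d)
    (h1 : ∀ z, a * ord P0 z = b * ord P (j z)) (h2 : ∀ z, c * ord P0 z = d * ord P' (j z)) :
    P = P' := by
  obtain ⟨P1, -, -, hu⟩ := h.exists_unique_above P0
  have key : ∀ (Q : Plk C' K') (a b : ℤ), 0 < a → 0 < b →
      (∀ z, a * ord P0 z = b * ord Q (j z)) → Q = P1 := by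
    intro Q a b ha hb rel
    refine hu Q (fun z hz => (mem_iff_ord _ _).2 (Or.inr ?_)) ?_
    · have := mul_nonneg ha.le (ord_nonneg_of_mem P0 hz)
      rw [rel] at this
      exact nonneg_of_mul_nonneg_right this hb
    · obtain ⟨z, z0, hz⟩ := exists_unif P0
      refine ⟨z, z0, fun e => ?_⟩
      have := rel z
      rw [hz, e] at this
      omega
  rw [key P a b ha hb h1, key P' c d hc hd h2]

/-- the three kinds of cusps -/
def Cu {k F : Type*} [Field k] [Field F] [Algebra k F] [CFF k F] (P : Plk k F) (t : F) : Prop :=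
  0 < ord P (t - 2) ∨ 0 < ord P (t + 2) ∨ ord P t < 0

theorem Cu.iff {C K C' K' : Type*} [Field C] [Field K] [Algebra C K] [CFF C K] [Field C']
    [Field K'] [Algebra C' K'] [CFF C' K'] (j : K →+* K') {P0 : Plk C K} {P : Plk C' K'} {e : ℤ}
    (he : 0 < e) (h : ∀ z, ord P (j z) = e * ord P0 z) (t : K) : Cu P (j t) ↔ Cu P0 t := by
  unfold Cu
  rw [← map_ofNat j 2, ← map_sub, ← map_add, h, h, h, mul_pos_iff_of_pos_left he,
    mul_pos_iff_of_pos_left he, ← neg_pos, ← mul_neg, mul_pos_iff_of_pos_left he, neg_pos]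

/-- a cusp of the algebraic level field -/
theorem down (X : Mdl) (hG : GRP) (hA : ARTIN X) (hC : CFFS) (hP : PLC X) {N : ℕ}
    {Γ : Subgroup SL(2, ℤ)} (h : Mid N Γ) [CFF Qb (L Γ)] (P0 : Plk Qb (L Γ))
    (hp : Cu P0 (X.tL h.hi)) : ∃ (γ : SL(2, ℤ)) (r : ℤ), 0 < r ∧ ∀ (z : L Γ) (s : LS),
      ExM N s (act γ⁻¹ (cv (z : FF))) → r * ord P0 z = s.order := by
  obtain ⟨hfi, -, hm, -⟩ := hG N h.lv
  haveI c1 : CFF Qb (L (Gt N)) := hC _ hm.hi hfi
  letI := algL h.lo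
  haveI := towerL h.lo
  haveI := (hA Γ (Gt N) h.lo hfi).1
  obtain ⟨Q, hQ⟩ := exists_over (L := L (Gt N)) P0
  have hr : (0 : ℤ) < ram (L Γ) Q := by exact_mod_cast ram_pos Q
  have up : ∀ z : L Γ, ord Q (algebraMap (L Γ) (L (Gt N)) z) = ram (L Γ) Q * ord P0 z :=
    fun z => by rw [ord_algebraMap, hQ]
  obtain ⟨γ, hγ⟩ := (hP N hm).2.1 Q ((Cu.iff _ hr up (X.tL h.hi)).2 hp)
  exact ⟨γ, _, hr, fun z s hs => by rw [← up]; exact hγ _ s hs⟩

end Kpc

open Kpc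

theorem kpc : Spec_KPC := by
  intro X hG hA hC hP hB hW N Γ h _
  obtain ⟨_, j, hj, hbc⟩ := hB N Γ h
  refine ⟨fun γ => wid h.lv.pos (pT_mem hG h γ), two hW h j hj, fun P t ht hp => ?_⟩
  haveI c0 : CFF Qb (L Γ) := hC _ h.hi
    (haveI := (hG N h.lv).1; Subgroup.finiteIndex_of_le h.lo)
  have et : t = j (X.tL h.hi) := Subtype.ext (by rw [ht, hj]; rfl)
  rw [et] at hp
  rcases restr hbc.comm P with h0 | ⟨P0, e, he, -, h2⟩
  · rw [← map_ofNat j 2, ← map_sub, ← map_add, h0, h0, h0] at hp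
    omega
  obtain ⟨γ, r, hr, hγ⟩ := down X hG hA hC hP h P0 ((Cu.iff j he h2 _).1 hp)
  obtain ⟨w, hw⟩ := wid h.lv.pos (pT_mem hG h γ)
  obtain ⟨P', hP'⟩ := two hW h j hj γ w hw
  obtain ⟨φ, hφ⟩ := exists_exp hw
  obtain ⟨m, hmw⟩ : w ∣ N := by exact_mod_cast (hw.2 N).1 (pT_mem hG h γ)
  have hm0 : 0 < m := Nat.pos_of_ne_zero fun e => by
    have := h.lv.pos
    rw [hmw, e, mul_zero] at this
    omega
  have rel : ∀ z : L Γ, r * ord P0 z = m * ord P' (j z) := fun z => by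
    have e1 := exM_period hm0 hw.1.ne' (hφ (j z))
    rw [← hmw, hj] at e1
    rw [hγ _ _ e1, order_sb, hP' _ _ (hφ (j z))]
  rw [same (P := P) hbc he one_pos hr (by exact_mod_cast hm0) (fun z => by rw [h2, one_mul]) rel]
  exact ⟨γ, w, hw, hP'⟩

end Vale.Agent.P027M.Th
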