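import Vale.Agent.P027M.Th.KDefs

/-! # P027 route M, block Th: a uniformiser at a cusp -/

set_option linter.all false

open UpperHalfPlane Matrix
open scoped MatrixGroups IntermediateField

noncomputable section

namespace Vale.Agent.P027M.Th

open Vale.Agent.P022 Vale.Agent.P022.H218.L3 Vale.Agent.P022.H231.L3 Vale.Agent.P022.H236.L3
  Vale.Agent.P022.H542.L3 Vale.Agent.P019P P025H816 P025H492 Vale.Agent.P027M.M

namespace Kwid

theorem order_sb (m : ℕ) (hm : 0 < m) (x : LS) : (sb m hm x).order = m * x.order := by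
  by_cases hx : x = 0
  · rw [hx, map_zero, HahnSeries.order_zero, mul_zero]
  have hy : sb m hm x ≠ 0 := (_root_.map_ne_zero _).2 hx
  apply le_antisymm
  · refine HahnSeries.order_le_of_coeff_ne_zero ?_
    rw [coeff_sb_mul]
    exact HahnSeries.coeff_order_eq_zero.not.2 hx
  · have h1 : (sb m hm x).coeff (sb m hm x).order ≠ 0 := HahnSeries.coeff_order_eq_zero.not.2 hy
    by_cases h : (m : ℤ) ∣ (sb m hm x).order
    · obtain ⟨k, hk⟩ := h
      rw [hk] at h1 ⊢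
      rw [coeff_sb_mul] at h1
      exact mul_le_mul_of_nonneg_left (HahnSeries.order_le_of_coeff_ne_zero h1)
        (Int.natCast_nonneg m)
    · exact absurd (coeff_sb_of_not_dvd _ _ _ _ h) h1

theorem cv_pg (X : Mdl) (γ : SL(2, ℤ)) (x : FF) : cv (X.pg γ x) = act γ⁻¹ (cv x) := by
  rw [Mdl.pg, X.pb_coe, pbz_SL]

theorem pT_add (γ : SL(2, ℤ)) (a b : ℤ) : pT γ (a + b) = pT γ a * pT γ b := by
  simp only [pT, _root_.zpow_add]
  group

end Kwid

open Kwid in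
theorem kwid : Spec_KWID := by
  intro X hG hA hC hE hP N Γ hm γ h ⟨h0, hw⟩
  obtain ⟨hfi, hn, hmN, -, hT, -⟩ := hG N hm.lv
  have c1 : CFF Qb (L (Gt N)) := hC _ hmN.hi hfi
  have c0 : CFF Qb (L Γ) := hC _ hm.hi (Subgroup.finiteIndex_of_le hm.lo)
  have hTq : ∀ q : ℤ, pT γ (N * q) ∈ Gt N := fun q => by
    rw [pT, _root_.zpow_mul, _root_.zpow_natCast]
    exact hn γ _ (zpow_mem hT q)
  obtain ⟨M, hM⟩ : h ∣ N := by
    have := (hw _).1 (hm.lo (hTq 1))
    rw [mul_one] at this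
    exact_mod_cast this
  have M0 : 0 < M := Nat.pos_of_mul_pos_left (hM ▸ hm.lv.pos)
  obtain ⟨p1, -, p3⟩ := hP N hmN
  obtain ⟨Q, hQ⟩ := p1 γ
  letI := algL hm.lo
  haveI := towerL hm.lo
  obtain ⟨f1, f2⟩ := hA Γ (Gt N) hm.lo hfi
  haveI := f1
  obtain ⟨g1, g2, -⟩ := f2 fun γ _ => hn γ
  haveI := g1
  obtain ⟨π, -, hπ⟩ := exists_unif (down (L Γ) Q)
  obtain ⟨s, hs, -⟩ := hE.2.2.1 h (X.pg γ (π : FF)) h0 (by
    have e : ModularGroup.T ^ h * γ⁻¹ = γ⁻¹ * pT γ h := by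
      rw [pT, _root_.zpow_natCast]; group
    rw [cv_pg, ← AlgEquiv.mul_apply, ← map_mul, e, map_mul, AlgEquiv.mul_apply,
      mem_L.1 π.2 _ ((hw h).2 dvd_rfl)])
  rw [cv_pg] at hs
  refine ⟨π, s, hs, ?_⟩
  have h1 := exM_period M0 h0.ne' hs
  rw [← hM] at h1
  have h2 := hQ (algebraMap (L Γ) (L (Gt N)) π) _ h1
  rw [ord_algebraMap, hπ, mul_one, order_sb] at h2
  have h3 : ∀ σ : inertia (L Γ) Q, ∃ i : Fin M, ∀ x : L (Gt N),
      cv ((σ.1 x : L (Gt N)) : FF) = act (pT γ (h * (i : ℕ)))⁻¹ (cv (x : FF)) := by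
    rintro ⟨σ, hσ⟩
    obtain ⟨δ, hδ, e⟩ := g2 σ
    obtain ⟨j, hj⟩ := p3 γ Q hQ δ (hm.hi hδ) fun x y hy => by
      rw [show y = σ x from Subtype.ext (hy.trans (e x).symm), ← ord_conj σ Q x, mem_inertia.1 hσ]
    obtain ⟨j, rfl⟩ : (h : ℤ) ∣ j := (hw j).1 (by
      have := Γ.mul_mem (Γ.inv_mem (hm.lo hj)) hδ
      rwa [_root_.mul_inv_rev, inv_inv, inv_mul_cancel_right] at this)
    have M1 : (0 : ℤ) < M := by exact_mod_cast M0
    have i0 := Int.emod_nonneg j M1.ne'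
    have i1 := Int.emod_lt_of_pos j M1
    refine ⟨⟨(j % M).toNat, by omega⟩, fun x => ?_⟩
    have e1 : (h : ℤ) * j = N * (j / M) + h * ((j % M).toNat : ℕ) := by
      rw [Int.toNat_of_nonneg i0, hM]
      push_cast
      linear_combination (-(h : ℤ)) * Int.mul_ediv_add_emod j M
    have e2 : δ = δ * (pT γ (h * j))⁻¹ * pT γ (N * (j / M)) * pT γ (h * ((j % M).toNat : ℕ)) := by
      rw [mul_assoc, ← pT_add, ← e1, inv_mul_cancel_right]
    show cv ((σ x : L (Gt N)) : FF) = act (pT γ (h * ((j % M).toNat : ℕ)))⁻¹ (cv (x : FF))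
    have hj' : δ * (pT γ (h * j))⁻¹ ∈ Gt N := hj
    rw [e, cv_pg, e2, _root_.mul_inv_rev, map_mul, AlgEquiv.mul_apply,
      mem_L.1 x.2 _ ((Gt N).inv_mem ((Gt N).mul_mem hj' (hTq (j / M))))]
  choose f hf using h3
  have h4 := Nat.card_le_card_of_injective f fun σ τ e => Subtype.ext (AlgEquiv.ext fun x =>
    Subtype.ext (cv_inj (by rw [hf σ, hf τ, e])))
  rw [card_inertia, Nat.card_eq_fintype_card, Fintype.card_fin] at h4
  have h5 := ram_pos (K := L Γ) Q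
  have h6 : (0 : ℤ) < M * s.order := by omega
  have h7 : (M : ℤ) * s.order ≤ M * 1 := by omega
  have M1 : (0 : ℤ) < M := by exact_mod_cast M0
  have h8 := (mul_pos_iff_of_pos_left M1).1 h6
  have h9 := le_of_mul_le_mul_left h7 M1
  omega

end Vale.Agent.P027M.Th
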