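import Vale.Agent.P027M.Th.Defs

/-! # P027 route M, block Th: from complex periods to primitive Gaussian periods -/

set_option linter.all false

noncomputable section

namespace Vale.Agent.P027M.Th

open scoped MatrixGroups

namespace LatP

theorem fg_sl : Group.FG SL(2, ℤ) :=
  Group.fg_iff.2 ⟨{ModularGroup.S, ModularGroup.T}, SpecialLinearGroup.SL2Z_generators,
    Set.toFinite _⟩

theorem span_fg {R M S : Type} [CommRing R] [AddCommGroup M] [Module R M] [Group S]
    (Γ : Subgroup S) [hΓ : Group.FG Γ] (c : S → M)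
    (hc : ∀ γ ∈ Γ, ∀ δ ∈ Γ, c (γ * δ) = c γ + c δ) :
    (Submodule.span R (c '' (Γ : Set S))).FG := by
  obtain ⟨s, hs, hf⟩ := Group.fg_iff.1 hΓ
  have h1 : c 1 = 0 := by
    have := hc 1 Γ.one_mem 1 Γ.one_mem
    rw [mul_one] at this
    exact left_eq_add.1 this
  refine Submodule.fg_def.2 ⟨(fun γ : Γ => c γ) '' s, hf.image _, le_antisymm ?_ ?_⟩
  · refine Submodule.span_mono ?_
    rintro _ ⟨γ, -, rfl⟩
    exact ⟨γ, γ.2, rfl⟩
  · rw [Submodule.span_le]
    rintro _ ⟨γ, hγ, rfl⟩
    have hm : (⟨γ, hγ⟩ : Γ) ∈ Subgroup.closure s := by rw [hs]; trivial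
    have key : ∀ x ∈ Subgroup.closure s, c (x : Γ) ∈ Submodule.span R ((fun γ : Γ => c γ) '' s) := by
      intro x hx
      induction hx using Subgroup.closure_induction with
      | mem x hx => exact Submodule.subset_span ⟨x, hx, rfl⟩
      | one => rw [OneMemClass.coe_one, h1]; exact zero_mem _
      | mul x y _ _ hx hy => rw [Subgroup.coe_mul, hc _ x.2 _ y.2]; exact add_mem hx hy
      | inv x _ hx =>
        have h2 := hc _ x.2 _ (x⁻¹).2
        rw [← Subgroup.coe_mul, mul_inv_cancel, OneMemClass.coe_one, h1] at h2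
        rw [eq_neg_of_add_eq_zero_right h2.symm]
        exact neg_mem hx
    exact key _ hm

theorem ex_lam {R M : Type} [CommRing R] [IsDomain R] [IsPrincipalIdealRing R] [AddCommGroup M]
    [Module R M] [Module.IsTorsionFree R M] (p : Submodule R M) (hp : p.FG) (h0 : p ≠ ⊥) :
    ∃ L : M → R, (∀ x ∈ p, ∀ y ∈ p, L (x + y) = L x + L y) ∧
      (∀ (a : R), ∀ x ∈ p, L (a • x) = a * L x) ∧ ∃ x ∈ p, L x = 1 := by
  classical
  have : Module.Finite R p := Module.Finite.iff_fg.2 hp
  have : Nontrivial p := Submodule.nontrivial_iff_ne_bot.2 h0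
  let b := Module.Free.chooseBasis R p
  obtain ⟨i⟩ := b.index_nonempty
  refine ⟨fun x => if h : x ∈ p then b.coord i ⟨x, h⟩ else 0, ?_, ?_, b i, (b i).2, ?_⟩
  · intro x hx y hy
    simp only [dif_pos hx, dif_pos hy, dif_pos (add_mem hx hy)]
    rw [← map_add]
    rfl
  · intro a x hx
    simp only [dif_pos hx, dif_pos (p.smul_mem a hx)]
    rw [← smul_eq_mul, ← map_smul]
    rfl
  · simp

end LatP

open LatP in
theorem lat : LAT := by
  intro N Γ _ e B c hc ⟨γ0, hγ0, hc0⟩
  letI : Algebra GaussianInt ℂ := GaussianInt.toComplex.toAlgebra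
  have hsm : ∀ (a : GaussianInt) (z : ℂ), a • z = GaussianInt.toComplex a * z := fun _ _ => rfl
  have : Module.IsTorsionFree GaussianInt ℂ :=
    Module.IsTorsionFree.of_smul_eq_zero fun a z h => by
      rw [hsm, mul_eq_zero] at h
      exact h.imp_left fun h => GaussianInt.toComplex_eq_zero.1 h
  have := fg_sl
  have hm : ∀ γ ∈ Γ, c γ ∈ Submodule.span GaussianInt (c '' (Γ : Set SL(2, ℤ))) :=
    fun γ hγ => Submodule.subset_span ⟨γ, hγ, rfl⟩
  obtain ⟨L, hadd, hsmul, x, hx, hx1⟩ := ex_lam _ (span_fg (R := GaussianInt) Γ c hc.add)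
    (fun h => hc0 (by have := hm γ0 hγ0; rwa [h, Submodule.mem_bot] at this))
  have hL0 : L 0 = 0 := by
    have := hsmul 0 0 (zero_mem _)
    rwa [zero_smul, zero_mul] at this
  have hsum : ∀ {I : Type} (s : Finset I) (f : I → ℂ),
      (∀ i, f i ∈ Submodule.span GaussianInt (c '' (Γ : Set SL(2, ℤ)))) →
      L (∑ i ∈ s, f i) = ∑ i ∈ s, L (f i) := by
    intro I s f hf
    classical
    induction s using Finset.induction_on with
    | empty => simpa using hL0
    | insert a s ha ih =>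
      rw [Finset.sum_insert ha, Finset.sum_insert ha, hadd _ (hf a) _
        (Submodule.sum_mem _ fun i _ => hf i), ih]
  refine ⟨fun γ => L (c γ), ⟨?_, ?_, ?_, ?_⟩, ?_⟩
  · intro γ hγ δ hδ
    rw [hc.add γ hγ δ hδ, hadd _ (hm γ hγ) _ (hm δ hδ)]
  · intro g h hg
    rw [hc.par g h hg, hL0]
  · intro δ hδ γ hγ hm'
    rw [hc.dia δ hδ γ hγ hm', ← hsm, hsmul _ _ (hm γ hγ)]
    rfl
  · intro l b hB d hd γ hγ s g hg he
    rw [← hsum _ _ (fun i => hm _ (hg i)), hc.hec l b hB d hd γ hγ s g hg he, ← hsm,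
      hsmul _ _ (hm γ hγ)]
    rfl
  · by_contra hcon
    push Not at hcon
    have key : ∀ y ∈ Submodule.span GaussianInt (c '' (Γ : Set SL(2, ℤ))),
        (3 : GaussianInt) ∣ L y := by
      intro y hy
      induction hy using Submodule.span_induction with
      | mem y hy =>
        obtain ⟨γ, hγ, rfl⟩ := hy
        exact hcon γ hγ
      | zero => rw [hL0]; exact dvd_zero _
      | add y z hy hz h1 h2 => rw [hadd _ hy _ hz]; exact dvd_add h1 h2
      | smul a y hy h1 => rw [hsmul _ _ hy]; exact h1.mul_left _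
    have h1 := key x hx
    rw [hx1] at h1
    have h2 := Zsqrtd.norm_eq_one_iff' (by norm_num) (3 : GaussianInt) |>.2 (isUnit_of_dvd_one h1)
    revert h2
    decide

end Vale.Agent.P027M.Th
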