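import Vale.Agent.P027M.Th.Defs
import Vale.Agent.P022.H138.LawG
import Vale.Agent.P022.H420.Po

/-! # P027 route M, block Th: the law under `Γ₀(4 N(M))` -/

set_option linter.all false

noncomputable section

namespace Vale.Agent.P027M.Th

open Vale.Agent.P022 Finset
open scoped MatrixGroups Real

namespace Law

/-- pairs as Gaussian integers -/
def eqv : ℤ × ℤ ≃ GaussianInt where
  toFun v := ⟨v.1, v.2⟩
  invFun α := (α.re, α.im)
  left_inv _ := rfl
  right_inv _ := rfl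

theorem sqrt4 : ((Real.sqrt ((4 : ℕ) : ℝ) : ℝ) : ℂ) = 2 := by
  rw [show ((4 : ℕ) : ℝ) = 2 ^ 2 by norm_num, Real.sqrt_sq (by norm_num)]
  simp

theorem tht_eq (f : GaussianInt → ℂ) (w : ℂ) : tht f w = th 1 0 1 4 1 (fun v => f (eqv v)) w := by
  rw [tht, th, ← eqv.tsum_eq]
  refine tsum_congr fun v => ?_
  have e1 : ((eqv v : GaussianInt) : ℂ) = ev 1 0 4 v ^ 1 := by
    rw [ev, sqrt4]
    change ((⟨v.1, v.2⟩ : GaussianInt) : ℂ) = _
    rw [GaussianInt.toComplex_def']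
    push_cast
    ring
  have e2 : (eqv v).norm = Qf 1 0 1 v := by
    rw [Zsqrtd.norm_def, Qf]
    change v.1 * v.1 - -1 * v.2 * v.2 = _
    ring
  rw [thT, ee, e1, e2, mul_assoc (2 * π * Complex.I)]

theorem shift1 {m : ℕ} (g : ℤ → ℂ) (hg : ∀ x, g (x + m) = g x) (p : ℤ) :
    ∑ i : Fin m, g (i.1 + p) = ∑ i : Fin m, g i.1 := by
  have step : ∀ p : ℤ, ∑ i : Fin m, g (i.1 + (p + 1)) = ∑ i : Fin m, g (i.1 + p) := by
    intro p
    rw [Fin.sum_univ_eq_sum_range (fun i => g (i + (p + 1))) m,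
      Fin.sum_univ_eq_sum_range (fun i => g (i + p)) m]
    have h1 := sum_range_succ (fun i : ℕ => g (i + p)) m
    have h2 := sum_range_succ' (fun i : ℕ => g (i + p)) m
    rw [h1, add_comm (m : ℤ), hg] at h2
    simp only [Nat.cast_zero, zero_add, add_left_inj] at h2
    rw [h2]
    refine sum_congr rfl fun i _ => ?_
    congr 1
    push_cast
    ring
  induction p using Int.induction_on with
  | zero => simp
  | succ n ih => rw [step, ih]
  | pred n ih => rw [← step, sub_add_cancel, ih]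

theorem hat_dvd {m : ℕ} (m0 : 0 < m) {F : ℤ × ℤ → ℂ} (hF : Per m F) {p q : ℤ}
    (h : ∀ x y, F (x + p, y + q) = F (x, y)) {v : ℤ × ℤ} (hv : hatF m F v ≠ 0) :
    (m : ℤ) ∣ v.1 * q - v.2 * p := by
  have mc : (m : ℂ) ≠ 0 := by exact_mod_cast m0.ne'
  let G : ℤ → ℤ → ℂ := fun x y => F (x, y) *
    Complex.exp (2 * π * Complex.I * ((v.1 * y - v.2 * x : ℤ) : ℂ) / m)
  have G1 : ∀ x y, G (x + m) y = G x y := by
    intro x y
    have := hF (x, y) (1, 0)
    simp only [Prod.smul_mk, Prod.mk_add_mk, smul_eq_mul, mul_one, mul_zero, add_zero] at this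
    simp only [G, this]
    congr 1
    refine Complex.exp_eq_exp_iff_exists_int.2 ⟨-v.2, ?_⟩
    push_cast
    field_simp
    ring
  have G2 : ∀ x y, G x (y + m) = G x y := by
    intro x y
    have := hF (x, y) (0, 1)
    simp only [Prod.smul_mk, Prod.mk_add_mk, smul_eq_mul, mul_one, mul_zero, add_zero] at this
    simp only [G, this]
    congr 1
    refine Complex.exp_eq_exp_iff_exists_int.2 ⟨v.1, ?_⟩
    push_cast
    field_simp
    ring
  have e1 : ∑ i : Fin m, ∑ j : Fin m, G (i.1 + p) (j.1 + q) = hatF m F v := by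
    rw [shift1 (fun x => ∑ j : Fin m, G x (j.1 + q)) (fun x => by simp only [G1]) p]
    exact sum_congr rfl fun i _ => shift1 (G i.1) (G2 _) q
  have e2 : ∑ i : Fin m, ∑ j : Fin m, G (i.1 + p) (j.1 + q) =
      Complex.exp (2 * π * Complex.I * ((v.1 * q - v.2 * p : ℤ) : ℂ) / m) * hatF m F v := by
    rw [hatF, mul_sum]
    refine sum_congr rfl fun i _ => ?_
    rw [mul_sum]
    refine sum_congr rfl fun j _ => ?_
    simp only [G, h]
    rw [mul_left_comm, ← Complex.exp_add]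
    congr 2
    push_cast
    ring
  rw [e1] at e2
  have e3 := mul_right_cancel₀ hv (e2.symm.trans (one_mul _).symm)
  obtain ⟨n, hn⟩ := Complex.exp_eq_one_iff.1 e3
  refine ⟨n, ?_⟩
  have hπ : (2 * π * Complex.I : ℂ) ≠ 0 := Complex.two_pi_I_ne_zero
  have : ((v.1 * q - v.2 * p : ℤ) : ℂ) = m * n := by
    rw [div_eq_iff mc] at hn
    refine mul_left_cancel₀ hπ (hn.trans ?_)
    ring
  exact_mod_cast this

theorem hat_norm {M : GaussianInt} {f : GaussianInt → ℂ} (hf : PerG M f) {m : ℕ} (m0 : 0 < m)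
    (hm : (m : ℤ) = M.norm) (hF : Per m fun v => f (eqv v)) {v : ℤ × ℤ}
    (hv : hatF m (fun v => f (eqv v)) v ≠ 0) : (m : ℤ) ∣ Qf 1 0 1 v := by
  obtain ⟨a, ha⟩ := hat_dvd m0 hF (p := M.re) (q := M.im) (fun x y => hf _ _ ⟨1, by
    ext <;> simp [eqv]⟩) hv
  obtain ⟨b, hb⟩ := hat_dvd m0 hF (p := -M.im) (q := M.re) (fun x y => hf _ _ ⟨⟨0, 1⟩, by
    ext <;> simp [eqv]⟩) hv
  rw [Zsqrtd.norm_def] at hm
  refine ⟨a ^ 2 + b ^ 2, mul_left_cancel₀ (a := (m : ℤ)) (by exact_mod_cast m0.ne') ?_⟩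
  rw [Qf]
  linear_combination (v.1 ^ 2 + v.2 ^ 2) * hm + (v.1 * M.im - v.2 * M.re + m * a) * ha +
    (v.1 * M.re + v.2 * M.im + m * b) * hb

theorem up {A B C d : ℤ} (h : A * d - B * C = 1) {w : ℂ} (hw : 0 < w.im) :
    (C * w + d : ℂ) ≠ 0 ∧ 0 < ((A * w + B) / (C * w + d)).im := by
  have h' : (A : ℝ) * d - B * C = 1 := by exact_mod_cast h
  have n0 : (C * w + d : ℂ) ≠ 0 := by
    intro e
    have e1 := congrArg Complex.im e
    have e2 := congrArg Complex.re e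
    simp [hw.ne'] at e1
    simp [e1] at e2
    simp [e1, e2] at h
  refine ⟨n0, ?_⟩
  rw [Complex.div_im, ← sub_div]
  refine div_pos ?_ (Complex.normSq_pos.2 n0)
  simp
  nlinarith

theorem low {m : ℕ} (m0 : 0 < m) {F : ℤ × ℤ → ℂ} (hF : Per m F)
    (hh : ∀ v, hatF m F v ≠ 0 → (m : ℤ) ∣ Qf 1 0 1 v) (k : ℤ) {w : ℂ} (hw : 0 < w.im) :
    th 1 0 1 4 1 F (w / (4 * m * k * w + 1)) = (4 * m * k * w + 1) ^ 2 * th 1 0 1 4 1 F w := by
  have mc : (m : ℂ) ≠ 0 := by exact_mod_cast m0.ne'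
  have w0 : w ≠ 0 := by
    rintro rfl
    simp at hw
  obtain ⟨n0, hw'⟩ := up (A := 1) (B := 0) (C := 4 * m * k) (d := 1) (by ring) hw
  push_cast at n0 hw'
  rw [one_mul, add_zero] at hw'
  rw [(H420.po 1 0 1 4 one_pos (by norm_num) (by norm_num) 1 m m0 F hF _ hw').2,
    (H420.po 1 0 1 4 one_pos (by norm_num) (by norm_num) 1 m m0 F hF _ hw).2, sqrt4]
  have e : th 1 0 1 4 1 (hatF m F) (-1 / (((4 : ℕ) : ℂ) * m ^ 2 * (w / (4 * m * k * w + 1)))) =
      th 1 0 1 4 1 (hatF m F) (-1 / (((4 : ℕ) : ℂ) * m ^ 2 * w)) := by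
    refine tsum_congr fun v => ?_
    by_cases hv : hatF m F v = 0
    · simp [thT, hv]
    · obtain ⟨t, ht⟩ := hh v hv
      rw [thT, thT, ht]
      congr 1
      refine Complex.exp_eq_exp_iff_exists_int.2 ⟨-(t * k), ?_⟩
      push_cast
      field_simp
      ring
  rw [e]
  field_simp
  ring

theorem chi4 {d : ℤ} (hd : Odd d) : X.chiD 4 d = c4 d := by
  have hn : Odd d.natAbs := Int.natAbs_odd.2 hd
  rw [X.chiD, jacobiSym.neg _ hn, Nat.cast_ofNat, jacobiSym.at_four hn, mul_one, c4]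
  rcases Int.natAbs_eq d with h | h
  · have h0 : 0 < d := by
      obtain ⟨k, hk⟩ := hd
      omega
    rw [Int.sign_eq_one_of_pos h0, one_mul]
    conv_rhs => rw [h, Int.cast_natCast]
  · have h0 : d < 0 := by
      obtain ⟨k, hk⟩ := hd
      omega
    rw [Int.sign_eq_neg_one_of_neg h0]
    conv_rhs => rw [h, Int.cast_neg, Int.cast_natCast, neg_eq_neg_one_mul, map_mul]
    rfl

end Law

open Law

theorem law : LAW := by
  intro M f M0 hf γ hγ w hw
  obtain ⟨m, hm⟩ : ∃ m : ℕ, (m : ℤ) = M.norm := ⟨_, GaussianInt.abs_natCast_norm M⟩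
  have m0 : 0 < m := by
    have := GaussianInt.norm_pos.2 M0
    omega
  have Mm : M ∣ (m : GaussianInt) := ⟨star M, by
    rw [← Zsqrtd.norm_eq_mul_conj, ← hm, Int.cast_natCast]⟩
  have hF : Per m fun v => f (eqv v) := fun v u => hf _ _ (Mm.trans ⟨eqv u, by
    ext <;> simp [eqv]⟩)
  have det : γ 0 0 * γ 1 1 - γ 0 1 * γ 1 0 = 1 := by
    rw [← Matrix.det_fin_two]
    exact γ.det_coe
  rw [← hm] at hγ
  obtain ⟨c, hc⟩ := hγ
  rw [tht_eq, tht_eq, mob, dn]
  generalize γ 0 0 = A at *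
  generalize γ 0 1 = B at *
  generalize γ 1 0 = C at *
  generalize γ 1 1 = d at *
  have od : Odd d := by
    have : Odd (A * d) := ⟨B * 2 * m * c, by rw [hc] at det; linear_combination det⟩
    exact (Int.odd_mul.1 this).2
  have det' : A * (d - 4 * m * (c * d) * B) - B * (C - 4 * m * (c * d) * A) = 1 := by
    linear_combination det
  have od' : Odd (d - 4 * m * (c * d) * B) := od.sub_even ⟨2 * m * (c * d) * B, by ring⟩
  obtain ⟨n0, -⟩ := up det hw
  obtain ⟨n1, hw'⟩ := up det' hw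
  have h1 := H138.LAWG H420.po 1 0 1 4 one_pos (by norm_num) (by norm_num) 1 m m0 _ hF A B _ _ det'
    ⟨-(4 * c * c * B), by
      push_cast
      rw [hc] at det ⊢
      linear_combination (-4 * m * c) * det⟩ od' w hw
  have h2 := low m0 hF (fun v => hat_norm hf m0 hm hF) (c * d) hw'
  rw [h1, chi4 od'] at h2
  have e1 : c4 (d - 4 * m * (c * d) * B) = c4 d := by
    rw [c4, c4]
    congr 1
    push_cast
    rw [show (4 : ZMod 4) = 0 from rfl]
    ring
  have e2 : (fun v : ℤ × ℤ => f (eqv ((d - 4 * m * (c * d) * B) • v))) =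
      fun v => f ((d : ℤ) * eqv v) := by
    funext v
    refine hf _ _ (Mm.trans ⟨-(4 * (c * d * B : ℤ) * eqv v), ?_⟩)
    ext <;> simp [eqv] <;> ring
  rw [e1, e2] at h2
  obtain ⟨E, hE⟩ : ∃ E : ℂ, E = ((C - 4 * m * (c * d) * A : ℤ) : ℂ) * w +
    ((d - 4 * m * (c * d) * B : ℤ) : ℂ) := ⟨_, rfl⟩
  rw [← hE] at h2 n1
  have e3 : 4 * m * ((c * d : ℤ) : ℂ) * ((A * w + B) / E) + 1 = (C * w + d) / E := by
    field_simp
    rw [hE]
    push_cast
    ring
  have e4 : (A * w + B) / E / ((C * w + d) / E) = (A * w + B) / (C * w + d) := by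
    field_simp
  rw [e3, e4] at h2
  rw [h2]
  field_simp
  ring

end Vale.Agent.P027M.Th
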