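import Vale.Agent.P027M.Th.Defs

/-! # P027 route M, block Th: the complex periods -/

set_option linter.all false

noncomputable section

namespace Vale.Agent.P027M.Th

open Filter Topology Vale.Agent.P022.H231.L3
open scoped MatrixGroups Real

namespace Per

/-- the Moebius action of an integral matrix -/
def mb (A : Matrix (Fin 2) (Fin 2) ℤ) (w : ℂ) : ℂ :=
  ((A 0 0 : ℂ) * w + (A 0 1 : ℂ)) / ((A 1 0 : ℂ) * w + (A 1 1 : ℂ))

theorem mob_eq (γ : SL(2, ℤ)) (w : ℂ) : mob γ w = mb (γ : Matrix (Fin 2) (Fin 2) ℤ) w := rfl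

theorem den_ne {A : Matrix (Fin 2) (Fin 2) ℤ} (h : 0 < A.det) {w : ℂ} (hw : 0 < w.im) :
    (A 1 0 : ℂ) * w + (A 1 1 : ℂ) ≠ 0 := by
  intro e
  have h1 := congrArg Complex.im e
  have h2 := congrArg Complex.re e
  simp at h1 h2
  rcases h1 with h1 | h1
  · rw [h1] at h2
    simp at h2
    rw [Matrix.det_fin_two, h1, h2] at h
    simp at h
  · exact hw.ne' h1

theorem im_pos {A : Matrix (Fin 2) (Fin 2) ℤ} (h : 0 < A.det) {w : ℂ} (hw : 0 < w.im) :
    0 < (mb A w).im := by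
  have h0 := Complex.normSq_pos.2 (den_ne h hw)
  have h1 : (0 : ℝ) < (A 0 0 : ℝ) * A 1 1 - A 0 1 * A 1 0 := by
    rw [Matrix.det_fin_two] at h; exact_mod_cast h
  have e : (mb A w).im = ((A 0 0 : ℝ) * A 1 1 - A 0 1 * A 1 0) * w.im /
      Complex.normSq ((A 1 0 : ℂ) * w + (A 1 1 : ℂ)) := by
    rw [mb, Complex.div_im, ← sub_div]
    congr 1
    simp
    ring
  rw [e]
  positivity

theorem mb_mul {A B : Matrix (Fin 2) (Fin 2) ℤ} (hA : 0 < A.det) (hB : 0 < B.det) {w : ℂ}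
    (hw : 0 < w.im) : mb (A * B) w = mb A (mb B w) := by
  have h1 := den_ne hB hw
  have h2 := den_ne hA (im_pos hB hw)
  have h3 := den_ne (A := A * B) (by rw [Matrix.det_mul]; positivity) hw
  rw [mb, mb, div_eq_div_iff h3 h2]
  simp only [mb, Matrix.mul_apply, Fin.sum_univ_two]
  push_cast
  field_simp
  ring

theorem sl_pos (γ : SL(2, ℤ)) : 0 < (γ : Matrix (Fin 2) (Fin 2) ℤ).det := by
  rw [γ.det_coe]; exact one_pos

theorem mob_pos (γ : SL(2, ℤ)) {w : ℂ} (hw : 0 < w.im) : 0 < (mob γ w).im := im_pos (sl_pos γ) hw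

theorem mob_mul (γ δ : SL(2, ℤ)) {w : ℂ} (hw : 0 < w.im) : mob (γ * δ) w = mob γ (mob δ w) :=
  mb_mul (sl_pos γ) (sl_pos δ) hw

theorem mob_T (h : ℤ) (w : ℂ) : mob (ModularGroup.T ^ h) w = w + h := by
  rw [mob_eq, ModularGroup.coe_T_zpow]
  simp [mb]

theorem al_det {l : ℕ} (h0 : 0 < l) (d : SL(2, ℤ)) (i : Option (Fin l)) : 0 < (al 1 l d i).det := by
  rw [det_al]; exact_mod_cast h0

theorem tend_add (h : ℤ) : Tendsto (fun w : ℂ => w + h) atI atI := by
  rw [atI, tendsto_comap_iff]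
  refine tendsto_comap.congr fun w => by simp

theorem tend_mul {ρ : ℝ} (h : 0 < ρ) : Tendsto (fun w : ℂ => (ρ : ℂ) * w) atI atI := by
  rw [atI, tendsto_comap_iff]
  refine (Tendsto.const_mul_atTop h tendsto_comap).congr fun w => by simp

theorem ev_pos : ∀ᶠ w in atI, 0 < w.im := tendsto_comap.eventually (eventually_gt_atTop 0)

instance : atI.NeBot := comap_neBot fun t ht => by
  obtain ⟨a, ha⟩ := Filter.nonempty_of_mem ht
  exact ⟨⟨0, a⟩, ha⟩

theorem tht_mul (a : ℂ) (f : GaussianInt → ℂ) (w : ℂ) :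
    tht (fun α => a * f α) w = a * tht f w := by
  simp only [tht, ← tsum_mul_left, mul_assoc]

end Per

open Per

theorem per : Spec_PER := by
  intro an law cusp prim hek cst M ξ N Γ _ M0 hper hi hN hΓ
  obtain ⟨f, hf⟩ : ∃ f : GaussianInt → ℂ, f = fun α => ((star (ξ α) : GaussianInt) : ℂ) := ⟨_, rfl⟩
  have fp : PerG M f := fun a b h => by rw [hf]; simp only [hper a b h]
  obtain ⟨bd, cu⟩ := cusp M f M0 fp
  have i0 : 0 < Complex.I.im := by simp
  -- the law for the primitive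
  have A : ∀ δ : SL(2, ℤ), (N : ℤ) ∣ δ 1 0 → ∃ k : ℂ, ∀ w : ℂ, 0 < w.im →
      pri f (mob δ w) = ((eTh ξ (δ 1 1) : GaussianInt) : ℂ) * pri f w + k := fun δ hδ => by
    obtain ⟨k, hk⟩ := prim f f δ ((eTh ξ (δ 1 1) : GaussianInt) : ℂ) 1 bd bd one_pos
      fun w hw => by
        rw [law M f M0 fp δ (hN.trans hδ) w hw]
        have e : (fun α => f ((δ 1 1 : ℤ) * α)) =
            fun α => ((star (ξ (δ 1 1 : ℤ)) : GaussianInt) : ℂ) * f α := by
          funext α
          simp only [hf, map_mul, star_mul']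
        rw [e, tht_mul, eTh, map_mul, map_intCast GaussianInt.toComplex]
        simp only [Complex.ofReal_one, one_mul]
        ring
    exact ⟨k, fun w hw => by simpa using hk w hw⟩
  obtain ⟨c, hc⟩ : ∃ c : SL(2, ℤ) → ℂ, c = fun γ => pri f (mob γ Complex.I) - pri f Complex.I :=
    ⟨_, rfl⟩
  have B : ∀ γ ∈ Γ, ∀ w : ℂ, 0 < w.im → c γ = pri f (mob γ w) - pri f w := fun γ hγ w hw => by
    obtain ⟨k, hk⟩ := A γ (hΓ γ hγ).1
    rw [hc]
    simp only [hk _ hw, hk _ i0, (hΓ γ hγ).2, map_one]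
    ring
  -- limits at the cusps
  have L : ∀ γ : SL(2, ℤ), ∃ L, Tendsto (fun w => pri f (mob γ w)) atI (𝓝 L) := fun γ => by
    obtain ⟨C, ρ, g, ρ0, bg, h⟩ := cu γ
    obtain ⟨k, hk⟩ := prim f g γ C ρ bd bg ρ0 h
    refine ⟨C / ρ * 0 + k, Tendsto.congr' (ev_pos.mono fun w hw => (hk w hw).symm) ?_⟩
    exact (((an g bg).2.1.comp (tend_mul ρ0)).const_mul _).add_const _
  refine ⟨c, ⟨fun γ hγ δ hδ => ?_, fun g h hg => ?_, fun δ hδ γ hγ h => ?_,
    fun l b hb d hd γ hγ s g hg hs => ?_⟩, ?_⟩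
  · rw [B _ (Γ.mul_mem hγ hδ) _ i0, B γ hγ _ (mob_pos δ i0), B δ hδ _ i0, mob_mul _ _ i0]
    ring
  · obtain ⟨L, hL⟩ := L g
    have h1 := (hL.comp (tend_add h)).sub hL
    rw [sub_self] at h1
    refine tendsto_nhds_unique (tendsto_const_nhds.congr' (ev_pos.mono fun w hw => ?_)) h1
    rw [B _ hg _ (mob_pos g hw), ← mob_mul _ _ hw, inv_mul_cancel_right, mob_mul _ _ hw, mob_T]
    rfl
  · obtain ⟨k, hk⟩ := A δ hδ
    rw [B _ h _ (mob_pos δ i0), ← mob_mul _ _ i0, inv_mul_cancel_right, mob_mul _ _ i0,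
      hk _ (mob_pos γ i0), hk _ i0, B γ hγ _ i0]
    ring
  · have l0 : 0 < l := hb.1.pos
    obtain ⟨k, hk⟩ := A d hd.1
    have e : eTh ξ (d 1 1) = eTh ξ l := by
      have h1 : 4 * M.norm ∣ d 1 1 - l := hN.trans hd.2.2
      have h2 : ((d 1 1 : ℤ) : ZMod 4) = ((l : ℤ) : ZMod 4) :=
        ((ZMod.intCast_eq_intCast_iff_dvd_sub _ _ 4).2
          (by simpa using (dvd_mul_right 4 _).trans h1)).symm
      have h3 : M ∣ ((d 1 1 : ℤ) : GaussianInt) - ((l : ℤ) : GaussianInt) := by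
        obtain ⟨u, hu⟩ := h1
        refine ⟨star M * 4 * u, ?_⟩
        rw [← Int.cast_sub, hu]
        push_cast
        rw [Zsqrtd.norm_eq_mul_conj]
        ring
      rw [eTh, eTh, c4, c4, h2, hper _ _ h3]
    have T : ∀ w : ℂ, 0 < w.im → ∑ i, pri f (mb (al 1 l d i) w) = (b : ℂ) * pri f w + k :=
      fun w hw => by
        have h1 := hek ξ l b (hf ▸ bd) hb w hw
        rw [← hf] at h1
        have h2 : mb !![(l : ℤ), 0; 0, 1] w = l * w := by simp [mb]
        have h3 : (0 : ℤ) < (!![(l : ℤ), 0; 0, 1] : Matrix (Fin 2) (Fin 2) ℤ).det := by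
          simpa [Matrix.det_fin_two_of] using l0
        have h4 : pri f (mb (al 1 l d none) w) =
            ((eTh ξ l : GaussianInt) : ℂ) * pri f (l * w) + k := by
          rw [al, mb_mul (sl_pos d) h3 hw, ← mob_eq, hk _ (im_pos h3 hw), h2, e]
        have h5 : ∀ j : Fin l, mb (al 1 l d (some j)) w = (w + (j : ℕ)) / l := fun j => by
          simp [al, mb]
        rw [Fintype.sum_option, h4, ← h1]
        simp only [h5]
        ring
    have h1 : ∀ i, c (g i) = pri f (mb (al 1 l d i) (mob γ Complex.I)) -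
        pri f (mb (al 1 l d (s i)) Complex.I) := fun i => by
      rw [B _ (hg i) _ (im_pos (al_det l0 d (s i)) i0), mob_eq, mob_eq,
        ← mb_mul (sl_pos _) (al_det l0 d _) i0, ← hs, mb_mul (al_det l0 d _) (sl_pos _) i0]
    simp only [h1]
    rw [Finset.sum_sub_distrib, T _ (mob_pos γ i0),
      Equiv.sum_comp s fun i => pri f (mb (al 1 l d i) Complex.I), T _ i0, B γ hγ _ i0]
    ring
  · by_contra hn
    push Not at hn
    obtain ⟨k, hk⟩ := cst Γ (pri f)
      (fun w hw => ((an f bd).1 w hw).2.differentiableAt.differentiableWithinAt)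
      (fun γ hγ w hw => sub_eq_zero.1 ((B γ hγ w hw).symm.trans (hn γ hγ))) L
    have k0 : k = 0 := tendsto_nhds_unique
      (tendsto_const_nhds.congr' (ev_pos.mono fun w hw => (hk w hw).symm)) (an f bd).2.1
    have h1 := tendsto_nhds_unique (tendsto_const_nhds (x := (0 : ℂ)).congr'
      (ev_pos.mono fun w hw => by
        show (0 : ℂ) = pri f w * ee (-w)
        rw [hk w hw, k0, zero_mul])) (an f bd).2.2
    have e1 : (-1 : GaussianInt) = ⟨0, 1⟩ * ⟨0, 1⟩ := by decide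
    have e2 : (⟨0, -1⟩ : GaussianInt) = ⟨0, 1⟩ * ⟨0, 1⟩ * ⟨0, 1⟩ := by decide
    have a1 : ξ (-1) = -1 := by rw [e1, map_mul, hi]
    have a2 : ξ ⟨0, -1⟩ = ⟨0, -1⟩ := by rw [e2, map_mul, map_mul, hi]
    simp only [hf, a1, a2, hi, map_one] at h1
    have h2 := congrArg Complex.re h1
    simp [GaussianInt.toComplex_def'] at h2
    norm_num at h2

end Vale.Agent.P027M.Th
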