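import Vale.Agent.P027M.Th.Defs

/-! # P027 route M, block Th: the Moebius action, integration of a transformation law -/

set_option linter.all false

noncomputable section

namespace Vale.Agent.P027M.Th

open Filter Topology Vale.Agent.P022.H231.L3
open scoped MatrixGroups Real

theorem det_int (γ : SL(2, ℤ)) : γ 0 0 * γ 1 1 - γ 0 1 * γ 1 0 = 1 := by
  have := γ.det_coe
  rwa [Matrix.det_fin_two] at this

theorem det_cx (γ : SL(2, ℤ)) : (γ 0 0 : ℂ) * γ 1 1 - γ 0 1 * γ 1 0 = 1 := by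
  exact_mod_cast det_int γ

theorem dn_ne (γ : SL(2, ℤ)) {w : ℂ} (hw : 0 < w.im) : dn γ w ≠ 0 := by
  intro h
  have h1 := congrArg Complex.im h
  have h2 := congrArg Complex.re h
  simp [dn, hw.ne'] at h1
  simp [dn, h1] at h2
  have := det_int γ
  rw [h1, h2] at this
  simp at this

theorem mob_im (γ : SL(2, ℤ)) (w : ℂ) : (mob γ w).im = w.im / Complex.normSq (dn γ w) := by
  have h : (γ 0 0 : ℝ) * γ 1 1 - γ 0 1 * γ 1 0 = 1 := by exact_mod_cast det_int γ
  rw [mob, Complex.div_im, ← sub_div]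
  congr 1
  simp [dn]
  linear_combination w.im * h

theorem mob_im_pos (γ : SL(2, ℤ)) {w : ℂ} (hw : 0 < w.im) : 0 < (mob γ w).im := by
  rw [mob_im]
  exact div_pos hw (Complex.normSq_pos.2 (dn_ne γ hw))

theorem dn_mul (γ δ : SL(2, ℤ)) {w : ℂ} (hw : 0 < w.im) :
    dn (γ * δ) w = dn γ (mob δ w) * dn δ w := by
  have h := dn_ne δ hw
  rw [dn, dn, mob, add_mul, mul_assoc, div_mul_cancel₀ _ h]
  simp [dn, Matrix.mul_apply, Fin.sum_univ_two]
  ring

theorem mob_mul (γ δ : SL(2, ℤ)) {w : ℂ} (hw : 0 < w.im) : mob (γ * δ) w = mob γ (mob δ w) := by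
  have h := dn_ne δ hw
  have e : (((γ * δ) 0 0 : ℤ) : ℂ) * w + ((γ * δ) 0 1 : ℤ) =
      ((γ 0 0 : ℂ) * mob δ w + (γ 0 1 : ℂ)) * dn δ w := by
    rw [mob, add_mul, mul_assoc, div_mul_cancel₀ _ h]
    simp [dn, Matrix.mul_apply, Fin.sum_univ_two]
    ring
  rw [mob, dn_mul γ δ hw, e, mul_div_mul_right _ _ h]
  rfl

theorem mob_one (w : ℂ) : mob 1 w = w := by simp [mob, dn]

theorem hasDerivAt_mob (γ : SL(2, ℤ)) {w : ℂ} (hw : 0 < w.im) :
    HasDerivAt (mob γ) (1 / dn γ w ^ 2) w := by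
  have h1 : HasDerivAt (fun w : ℂ => (γ 0 0 : ℂ) * w + (γ 0 1 : ℂ)) (γ 0 0 : ℂ) w := by
    simpa using ((hasDerivAt_id w).const_mul (γ 0 0 : ℂ)).add_const (γ 0 1 : ℂ)
  have h2 : HasDerivAt (fun w : ℂ => (γ 1 0 : ℂ) * w + (γ 1 1 : ℂ)) (γ 1 0 : ℂ) w := by
    simpa using ((hasDerivAt_id w).const_mul (γ 1 0 : ℂ)).add_const (γ 1 1 : ℂ)
  refine (h1.div h2 (dn_ne γ hw)).congr_deriv ?_
  rw [dn]
  congr 1
  linear_combination det_cx γ

theorem open_uhp : IsOpen {w : ℂ | 0 < w.im} := isOpen_lt continuous_const Complex.continuous_im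

theorem prim : Spec_PRIM := by
  intro an f g γ C ρ hf hg hρ h
  have hρ' : (ρ : ℂ) ≠ 0 := Complex.ofReal_ne_zero.2 hρ.ne'
  have key : ∀ w : ℂ, 0 < w.im →
      HasDerivAt (fun w => pri f (mob γ w) - C / ρ * pri g (ρ * w)) 0 w := by
    intro w hw
    have h1 := ((an f hf).1 _ (mob_im_pos γ hw)).2.comp w (hasDerivAt_mob γ hw)
    have h2 := (((an g hg).1 (ρ * w) (by simpa using mul_pos hρ hw)).2.comp w
      ((hasDerivAt_id w).const_mul (ρ : ℂ))).const_mul (C / ρ)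
    have h3 := dn_ne γ hw
    refine (h1.sub h2).congr_deriv ?_
    rw [h w hw]
    field_simp
    ring
  obtain ⟨k, hk⟩ := open_uhp.exists_is_const_of_deriv_eq_zero
    (convex_halfSpace_im_gt 0).isPreconnected
    (fun w hw => (key w hw).differentiableAt.differentiableWithinAt) fun w hw => (key w hw).deriv
  exact ⟨k, fun w hw => by rw [← hk w hw]; ring⟩

end Vale.Agent.P027M.Th
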