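import Vale.Agent.P027M.Th.An
import Vale.Agent.P027M.Th.Law
import Vale.Agent.P027M.Th.Cusp
import Vale.Agent.P027M.Th.Prim
import Vale.Agent.P027M.Th.Hek
import Vale.Agent.P027M.Th.Cst
import Vale.Agent.P027M.Th.Lat
import Vale.Agent.P027M.Th.Per
import Vale.Agent.P027M.Th.Kbc
import Vale.Agent.P027M.Th.Kpa
import Vale.Agent.P027M.Th.Kwid
import Vale.Agent.P027M.Th.Kpc
import Vale.Agent.P027M.Th.Kord
import Vale.Agent.P027M.Th.InThe
import Vale.Agent.P027M.M.All1

/-! # P027 route M, block Th: closed terms -/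

set_option linter.all false

noncomputable section

namespace Vale.Agent.P027M.Th

open Vale.Agent.P022 Vale.Agent.P019P P025H816 Vale.Agent.P027M.M

theorem theta : THETA := theta_of (per an law cusp (Th.prim an) (Hek.hek an) cst) lat

theorem kbc0 : KBC := mdl.elim fun X => kbc X grp (x_faith X)

theorem kwid0 : KWID := mdl.elim fun X => kwid X grp (artin X) x_cffs M.exp (x_plc X)

theorem kord0 : KORD :=
  mdl.elim fun X => kord X grp M.exp (kpa X grp kbc0)
    (kpc X grp (artin X) x_cffs (x_plc X) kbc0 kwid0)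

theorem kap0 : KAP := kap grp kbc0 kord0

theorem inTHE0 (X : Mdl) {N : ℕ} {ε : ZMod N →* GaussianInt} {M : GaussianInt}
    {ξ : GaussianInt →* GaussianInt} {a : ℕ → O3} (h : F.Hk N ε M ξ) (hr : F.ResTr N ξ a) :
    TW.InTHE X N a (TW.epsO ε) :=
  inTHE X theta kap0 grp step h hr

end Vale.Agent.P027M.Th
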