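import Vale.Agent.P027M.Th.Defs

/-! # P027 route M, block Th: convergence, derivative and leading term of the theta series -/

set_option linter.all false

noncomputable section

namespace Vale.Agent.P027M.Th

open Filter Topology
open scoped Real

namespace An

theorem sumZ {A : ℝ} (hA : 0 < A) : Summable fun n : ℤ => Real.exp (-(A * (n : ℝ) ^ 2)) := by
  have h : Summable fun n : ℕ => Real.exp (-(A * (n : ℝ) ^ 2)) := by
    refine (summable_geometric_of_lt_one (Real.exp_pos (-A)).le
      (Real.exp_lt_one_iff.2 (by linarith))).of_nonneg_of_le (fun n => (Real.exp_pos _).le) fun n => ?_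
    rw [← Real.exp_nat_mul, Real.exp_le_exp]
    have : (n : ℝ) ≤ (n : ℝ) ^ 2 := by exact_mod_cast Nat.le_self_pow two_ne_zero n
    nlinarith
  exact Summable.of_nat_of_neg (by simpa using h) (by simpa using h)

theorem sumE {A : ℝ} (hA : 0 < A) :
    Summable fun α : GaussianInt => Real.exp (-(A * (α.norm : ℝ))) := by
  have h := (sumZ hA).mul_of_nonneg (sumZ hA) (fun _ => (Real.exp_pos _).le)
    fun _ => (Real.exp_pos _).le
  refine (h.comp_injective (i := fun α : GaussianInt => (α.re, α.im)) fun a b e => ?_).congr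
    fun α => ?_
  · exact Zsqrtd.ext (congrArg Prod.fst e) (congrArg Prod.snd e)
  · simp only [Function.comp, ← Real.exp_add, Zsqrtd.norm_def]
    congr 1
    push_cast
    ring

theorem nn (α : GaussianInt) : (0 : ℝ) ≤ (α.norm : ℝ) := by
  exact_mod_cast GaussianInt.norm_nonneg α

theorem sumN {A : ℝ} (hA : 0 < A) :
    Summable fun α : GaussianInt => (α.norm : ℝ) * Real.exp (-(A * (α.norm : ℝ))) := by
  refine ((sumE (half_pos hA)).mul_left (2 / A)).of_nonneg_of_le
    (fun α => mul_nonneg (nn α) (Real.exp_pos _).le) fun α => ?_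
  have h1 := Real.add_one_le_exp (A / 2 * (α.norm : ℝ))
  have h2 : Real.exp (-(A / 2 * (α.norm : ℝ))) =
      Real.exp (A / 2 * (α.norm : ℝ)) * Real.exp (-(A * (α.norm : ℝ))) := by
    rw [← Real.exp_add]
    congr 1
    ring
  rw [h2, ← mul_assoc]
  refine mul_le_mul_of_nonneg_right ?_ (Real.exp_pos _).le
  rw [div_mul_eq_mul_div, le_div_iff₀ hA]
  linarith

theorem le_norm (α : GaussianInt) : ‖(α : ℂ)‖ ≤ (α.norm : ℝ) := by
  have h1 : ‖(α : ℂ)‖ ^ 2 = (α.norm : ℝ) := by
    rw [GaussianInt.intCast_real_norm, Complex.normSq_eq_norm_sq]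
  have h2 : (α.norm : ℝ) ≤ (α.norm : ℝ) ^ 2 := by exact_mod_cast Int.le_self_sq α.norm
  exact (pow_le_pow_iff_left₀ (norm_nonneg _) (nn α) two_ne_zero).1 (h1.trans_le h2)

theorem norm_ee (n : ℤ) (w : ℂ) : ‖ee ((n : ℂ) * w)‖ = Real.exp (-(2 * π * w.im * n)) := by
  rw [ee, Complex.norm_exp]
  congr 1
  simp
  ring

theorem co_le {f : GaussianInt → ℂ} {B : ℝ} (hB : ∀ α, ‖f α‖ ≤ B) (α : GaussianInt) :
    ‖f α * (α : ℂ) / (α.norm : ℂ)‖ ≤ B := by
  rw [mul_div_assoc, norm_mul, norm_div, Complex.norm_intCast, abs_of_nonneg (nn α)]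
  exact (mul_le_of_le_one_right (norm_nonneg _) (div_le_one_of_le₀ (le_norm α) (nn α))).trans (hB α)

theorem sum_prT {f : GaussianInt → ℂ} {B : ℝ} (hB : ∀ α, ‖f α‖ ≤ B) {w : ℂ} (hw : 0 < w.im) :
    Summable (prT f w) := by
  refine Summable.of_norm_bounded ((sumE (A := 2 * π * w.im) (by positivity)).mul_left B)
    fun α => ?_
  rw [prT, norm_mul, norm_ee]
  exact mul_le_mul_of_nonneg_right (co_le hB α) (Real.exp_pos _).le

theorem der (f : GaussianInt → ℂ) (α : GaussianInt) (w : ℂ) : HasDerivAt (fun z => prT f z α)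
    (2 * π * Complex.I * (f α * (α : ℂ) * ee ((α.norm : ℂ) * w))) w := by
  have h := ((((hasDerivAt_id w).const_mul (α.norm : ℂ)).const_mul
    (2 * π * Complex.I)).cexp).const_mul (f α * (α : ℂ) / (α.norm : ℂ))
  refine h.congr_deriv ?_
  rcases eq_or_ne α 0 with rfl | k
  · simp
  · have : (α.norm : ℂ) ≠ 0 := by exact_mod_cast fun e => k (GaussianInt.norm_eq_zero.1 e)
    simp only [ee, id]
    field_simp

theorem ee_zero {n : ℤ} (hn : 0 < n) : Tendsto (fun w : ℂ => ee ((n : ℂ) * w)) atI (𝓝 0) := by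
  rw [tendsto_zero_iff_norm_tendsto_zero]
  simp only [norm_ee]
  refine Real.tendsto_exp_atBot.comp (tendsto_neg_atTop_atBot.comp ?_)
  exact Tendsto.atTop_mul_const (by exact_mod_cast hn)
    (Tendsto.const_mul_atTop (by positivity) tendsto_comap)

theorem ee_mul (n : ℤ) (w : ℂ) : ee ((n : ℂ) * w) * ee (-w) = ee (((n - 1 : ℤ) : ℂ) * w) := by
  rw [ee, ee, ee, ← Complex.exp_add]
  congr 1
  push_cast
  ring

theorem norm_one' {α : GaussianInt} (h : α.norm = 1) :
    α ∈ ({1, -1, ⟨0, 1⟩, ⟨0, -1⟩} : Finset GaussianInt) := by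
  obtain ⟨x, y⟩ := α
  simp only [Zsqrtd.norm_def] at h
  have h1 : -1 ≤ x ∧ x ≤ 1 ∧ -1 ≤ y ∧ y ≤ 1 := by
    refine ⟨?_, ?_, ?_, ?_⟩ <;> nlinarith [mul_self_nonneg x, mul_self_nonneg y]
  obtain ⟨a, b, c, d⟩ := h1
  interval_cases x <;> interval_cases y <;> first | omega | decide

theorem four (f : GaussianInt → ℂ) :
    ∑' α : GaussianInt, (if α.norm = 1 then f α * (α : ℂ) else 0) =
      f 1 - f (-1) + Complex.I * (f ⟨0, 1⟩ - f ⟨0, -1⟩) := by
  have h0 : ∀ α : GaussianInt, α ∉ ({1, -1, ⟨0, 1⟩, ⟨0, -1⟩} : Finset GaussianInt) →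
      (if α.norm = 1 then f α * (α : ℂ) else 0) = 0 := by
    intro α k
    have : α.norm ≠ 1 := fun e => k (norm_one' e)
    rw [if_neg this]
  rw [tsum_eq_sum h0, Finset.sum_insert (by simp [Zsqrtd.ext_iff]), Finset.sum_insert (by simp [Zsqrtd.ext_iff]),
    Finset.sum_insert (by simp [Zsqrtd.ext_iff]), Finset.sum_singleton]
  simp [GaussianInt.toComplex_def', Zsqrtd.norm_def]
  ring

end An

open An

theorem an : AN := by
  rintro f ⟨B, hB⟩
  have B0 : 0 ≤ B := (norm_nonneg _).trans (hB 0)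
  have lim : Tendsto (fun w => pri f w * ee (-w)) atI
      (𝓝 (f 1 - f (-1) + Complex.I * (f ⟨0, 1⟩ - f ⟨0, -1⟩))) := by
    have h := tendsto_tsum_of_dominated_convergence (𝓕 := atI)
      (f := fun w α => prT f w α * ee (-w))
      (g := fun α : GaussianInt => if α.norm = 1 then f α * (α : ℂ) else 0)
      ((sumE (A := 2 * π) (by positivity)).mul_left (B * Real.exp (2 * π))) (fun α => ?_) ?_
    · rw [four f] at h
      simp only [tsum_mul_right] at h
      exact h
    · simp only [prT, mul_assoc _ (ee _), ee_mul]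
      rcases (GaussianInt.norm_nonneg α).eq_or_lt with k | k
      · simpa [← k] using tendsto_const_nhds
      · rcases (show 1 ≤ α.norm from k).eq_or_lt with k' | k'
        · simpa [← k', ee] using tendsto_const_nhds
        · rw [if_neg k'.ne']
          simpa using (ee_zero (sub_pos.2 k')).const_mul (f α * (α : ℂ) / (α.norm : ℂ))
    · filter_upwards [tendsto_comap.eventually (eventually_ge_atTop (1 : ℝ))] with w hw α
      simp only [prT, mul_assoc _ (ee _), ee_mul]
      rcases (GaussianInt.norm_nonneg α).eq_or_lt with k | k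
      · simp only [← k, Int.cast_zero, div_zero, zero_mul, norm_zero]
        positivity
      · rw [norm_mul, norm_ee, mul_assoc B, ← Real.exp_add]
        refine mul_le_mul (co_le hB α) (Real.exp_le_exp.2 ?_) (Real.exp_pos _).le B0
        have k1 : (1 : ℝ) ≤ (α.norm : ℝ) := by exact_mod_cast k
        have k2 : (1 : ℝ) ≤ w.im := hw
        push_cast
        nlinarith [mul_nonneg (mul_nonneg Real.pi_pos.le (sub_nonneg.2 k1)) (sub_nonneg.2 k2)]
  refine ⟨fun w hw => ⟨sum_prT hB hw, ?_⟩, ?_, lim⟩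
  · have h := hasDerivAt_tsum_of_isPreconnected (t := {z : ℂ | w.im / 2 < z.im})
      (g := fun α z => prT f z α)
      (g' := fun α z => 2 * π * Complex.I * (f α * (α : ℂ) * ee ((α.norm : ℂ) * z)))
      ((sumN (A := 2 * π * (w.im / 2)) (by positivity)).mul_left (2 * π * B))
      (isOpen_lt continuous_const Complex.continuous_im)
      (convex_halfSpace_im_gt _).isPreconnected (fun α z _ => der f α z) (fun α z hz => ?_)
      (y₀ := w) (half_lt_self hw) (sum_prT hB hw) (y := w) (half_lt_self hw)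
    · rwa [tsum_mul_left] at h
    · have e : ‖(2 * π * Complex.I : ℂ)‖ = 2 * π := by simp [abs_of_pos Real.pi_pos]
      rw [norm_mul, e, norm_mul, norm_mul (f α), norm_ee, mul_assoc (2 * π) B, ← mul_assoc B]
      refine mul_le_mul_of_nonneg_left (mul_le_mul (mul_le_mul (hB α) (le_norm α) (norm_nonneg _) B0)
        (Real.exp_le_exp.2 ?_) (Real.exp_pos _).le (mul_nonneg B0 (nn α))) (by positivity)
      have k : w.im / 2 < z.im := hz
      nlinarith [mul_nonneg (mul_nonneg Real.pi_pos.le (nn α)) (sub_nonneg.2 k.le)]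
  · have h := lim.mul (ee_zero one_pos)
    rw [mul_zero] at h
    refine h.congr fun w => ?_
    rw [mul_assoc, mul_comm (ee (-w)), ee_mul]
    simp [ee]

end Vale.Agent.P027M.Th
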