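import Vale.Agent.P027M.Th.KDefs

/-! # P027 route M, block Th: the Kummer map -/

set_option linter.all false

open UpperHalfPlane Matrix
open scoped MatrixGroups IntermediateField

noncomputable section

namespace Vale.Agent.P027M.Th

open Vale.Agent.P022 Vale.Agent.P022.H218.L3 Vale.Agent.P022.H231.L3 Vale.Agent.P022.H236.L3
  Vale.Agent.P022.H542.L3 Vale.Agent.P019P P025H816 P025H492 Vale.Agent.P027M.M
  Vale.Agent.P022.H587.L3

section rep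

variable {m : ℕ} [NeZero m] {Γ : Subgroup SL(2, ℤ)}

/-- the constant `e(a / m)` -/
def eM (a : ZMod m) : Mer := algebraMap ℂ Mer (ZMod.stdAddChar a)

theorem ze_val (a : ZMod m) : algebraMap ℂ Mer (ze m (a.val : ℕ)) = eM a := by
  rw [eM, ze, ← ZMod.stdAddChar_coe, Int.cast_natCast, ZMod.natCast_zmod_val]

theorem eM_add (a b : ZMod m) : eM (a + b) = eM a * eM b := by
  rw [eM, AddChar.map_add_eq_mul, map_mul]; rfl

theorem eM_zero : eM (0 : ZMod m) = 1 := by rw [eM, AddChar.map_zero_eq_one, map_one]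

theorem eM_inj {a b : ZMod m} (h : eM a = eM b) : a = b :=
  ZMod.injective_stdAddChar ((algebraMap ℂ Mer).injective h)

theorem eM_sum {I : Type} (s : Finset I) (a : I → ZMod m) :
    eM (∑ i ∈ s, a i) = ∏ i ∈ s, eM (a i) := by
  classical
  induction s using Finset.induction_on with
  | empty => simp [eM_zero]
  | insert i s hi ih => rw [Finset.sum_insert hi, Finset.prod_insert hi, eM_add, ih]

theorem exists_eM {ζ : ℂ} (h : ζ ^ m = 1) : ∃ a : ZMod m, eM a = algebraMap ℂ Mer ζ := by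
  obtain ⟨i, -, hi⟩ := (Complex.isPrimitiveRoot_exp m (NeZero.ne m)).eq_pow_of_pow_eq_one h
  refine ⟨((i : ℤ) : ZMod m), ?_⟩
  rw [eM, ZMod.stdAddChar_coe, ← hi, ← Complex.exp_nat_mul]
  congr 2
  push_cast
  ring

theorem rep_iff {x : Mer} {c : SL(2, ℤ) → ZMod m} : Rep Γ m x c ↔
    ∃ y : Mer, y ≠ 0 ∧ y ^ m = x ∧ ∀ γ ∈ Γ, act γ⁻¹ y = eM (c γ) * y := by
  simp only [Rep, ze_val]

/-- every root has the same character -/
theorem Rep.root {x y : Mer} {c : SL(2, ℤ) → ZMod m} (h : Rep Γ m x c) (hy : y ^ m = x) :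
    y ≠ 0 ∧ ∀ γ ∈ Γ, act γ⁻¹ y = eM (c γ) * y := by
  obtain ⟨y', h0, h1, h2⟩ := rep_iff.1 h
  obtain ⟨ζ, -, hζ⟩ := exists_const (NeZero.pos m) (x := y / y')
    (by rw [div_pow, hy, h1, div_self (h1 ▸ pow_ne_zero _ h0)])
  have e : y = algebraMap ℂ Mer ζ * y' := by rw [← hζ, div_mul_cancel₀ _ h0]
  refine ⟨e ▸ mul_ne_zero ((_root_.map_ne_zero _).2 ζ.ne_zero) h0, fun γ hγ => ?_⟩
  rw [e, map_mul, AlgEquiv.commutes, h2 γ hγ]
  ring

theorem Rep.unique {x : Mer} {c c' : SL(2, ℤ) → ZMod m} (h : Rep Γ m x c) (h' : Rep Γ m x c') :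
    ∀ γ ∈ Γ, c γ = c' γ := by
  obtain ⟨y, h0, h1, h2⟩ := rep_iff.1 h
  intro γ hγ
  exact eM_inj (mul_right_cancel₀ h0 ((h2 γ hγ).symm.trans ((h'.root h1).2 γ hγ)))

theorem Rep.mul {x x' : Mer} {c c' : SL(2, ℤ) → ZMod m} (h : Rep Γ m x c) (h' : Rep Γ m x' c') :
    Rep Γ m (x * x') (c + c') := by
  obtain ⟨y, h0, h1, h2⟩ := rep_iff.1 h
  obtain ⟨y', h0', h1', h2'⟩ := rep_iff.1 h'
  refine rep_iff.2 ⟨y * y', mul_ne_zero h0 h0', by rw [mul_pow, h1, h1'], fun γ hγ => ?_⟩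
  rw [map_mul, h2 γ hγ, h2' γ hγ, Pi.add_apply, eM_add]
  ring

theorem Rep.add {x : Mer} {c : SL(2, ℤ) → ZMod m} (h : Rep Γ m x c) :
    ∀ γ ∈ Γ, ∀ δ ∈ Γ, c (γ * δ) = c γ + c δ := by
  obtain ⟨y, h0, h1, h2⟩ := rep_iff.1 h
  intro γ hγ δ hδ
  refine eM_inj (mul_right_cancel₀ h0 ?_)
  rw [← h2 _ (Γ.mul_mem hγ hδ), _root_.mul_inv_rev, map_mul, AlgEquiv.mul_apply, h2 γ hγ, map_mul,
    h2 δ hδ, eM_add, eM, AlgEquiv.commutes, mul_assoc]

theorem Rep.zero {x y : Mer} {c : SL(2, ℤ) → ZMod m} (h : Rep Γ m x c) (hy : y ^ m = x)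
    {γ : SL(2, ℤ)} (hγ : γ ∈ Γ) : c γ = 0 ↔ act γ y = y := by
  obtain ⟨h0, h2⟩ := h.root hy
  have e : act γ y = y ↔ act γ⁻¹ y = y := by
    rw [map_inv, AlgEquiv.aut_inv, AlgEquiv.symm_apply_eq, eq_comm]
  rw [e, h2 γ hγ]
  refine ⟨fun h => by rw [h, eM_zero, one_mul], fun h => eM_inj ?_⟩
  rw [eM_zero]
  exact mul_right_cancel₀ h0 (h.trans (one_mul y).symm)

theorem exists_rep' {y : Mer} (hy : y ≠ 0) (H : ∀ γ ∈ Γ, act γ (y ^ m) = y ^ m) :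
    ∃ c, Rep Γ m (y ^ m) c ∧ ∀ γ, γ ∉ Γ → c γ = 0 := by
  classical
  obtain ⟨φ, h1, -, h2⟩ := exists_char (NeZero.pos m) hy H
  have h3 : ∀ γ : Γ, ∃ a : ZMod m, eM a = algebraMap ℂ Mer (φ γ) := fun γ => exists_eM (by
    rw [← Units.val_pow_eq_pow_val, ← MonoidHom.pow_apply, h1]; rfl)
  choose a ha using h3
  refine ⟨fun γ => if h : γ ∈ Γ then a ⟨γ, h⟩ else 0,
    rep_iff.2 ⟨y, hy, rfl, fun γ hγ => ?_⟩, fun γ hγ => dif_neg hγ⟩
  simp only [dif_pos hγ, ha]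
  exact h2 ⟨γ, hγ⟩

end rep

theorem repp : REPP := by
  intro Γ Γ' m hm I _ A hA x c c' h h' γ hγ s g hg hs
  have : NeZero m := ⟨hm.ne'⟩
  obtain ⟨y, h0, h1, h2⟩ := rep_iff.1 h
  obtain ⟨k0, k⟩ := h'.root (y := ∏ i, pbz (A i) (hA i) y)
    (by rw [← Finset.prod_pow, ← h1]; simp only [map_pow])
  refine eM_inj (mul_right_cancel₀ k0 ?_)
  have e : ∀ i, act γ⁻¹ (pbz (A i) (hA i) y) = eM (c (g i)) * pbz (A (s i)) (hA _) y := fun i => by
    have hp1 : 0 < (A i * (γ : M2)).det := by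
      rw [Matrix.det_mul]; exact mul_pos (hA i) (SL_pos γ)
    have hp2 : 0 < ((g i : M2) * A (s i)).det := hs i ▸ hp1
    rw [← pbz_SL, ← pbz_mul (hA i) (SL_pos γ) hp1, pbz_congr (hs i) hp1 hp2,
      pbz_mul (SL_pos _) (hA _) hp2, pbz_SL, h2 _ (hg i), map_mul, eM, AlgEquiv.commutes]
  rw [← k γ hγ, map_prod, eM_sum]
  simp only [e]
  rw [Finset.prod_mul_distrib, Equiv.prod_comp s fun i => pbz (A i) (hA i) y]

theorem kap : Spec_KAP := by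
  intro hG hB hO N Γ hΓ _ m hm
  have : NeZero m := ⟨hm.ne'⟩
  obtain ⟨_, j, hj, bc⟩ := hB N Γ hΓ
  have hO' := hO N Γ hΓ m hm
  have j0 : ∀ f : (L Γ)ˣ, j f ≠ 0 := fun f => (_root_.map_ne_zero j).2 f.ne_zero
  have ex : ∀ f : divU Qb (L Γ) m, ∃ c, Rep Γ m (cv (((f : (L Γ)ˣ) : L Γ) : FF)) c ∧ Par Γ c :=
    fun f => by
      obtain ⟨y, h1, h2⟩ := (hO' _ (j0 f)).1 (dvd_up bc.comm f.2)
      have y0 : y ≠ 0 := fun e => j0 f (Subtype.ext (by
        rw [← h1, e, zero_pow hm.ne']; rfl))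
      obtain ⟨c, h3, h4⟩ := exists_rep' (Γ := Γ) (m := m) y0 fun γ hγ => by
        rw [h1]; exact act_eq_self (j (f : (L Γ)ˣ)).2 hγ
      refine ⟨c, by rw [← hj, ← h1]; exact h3, h3.add, fun g h hg => (h3.zero rfl hg).2 (h2 g h hg),
        ?_, h4⟩
      by_cases e : (-1 : SL(2, ℤ)) ∈ Γ
      · exact (h3.zero rfl e).2 (act_neg_one y)
      · exact h4 _ e
  choose c hc hp using ex
  have uq : ∀ (f : divU Qb (L Γ) m) c', Rep Γ m (cv (((f : (L Γ)ˣ) : L Γ) : FF)) c' → (∀ γ, γ ∉ Γ → c' γ = 0) →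
      c f = c' := fun f c' h1 h2 => funext fun γ => by
    by_cases e : γ ∈ Γ
    · exact (hc f).unique h1 γ e
    · rw [(hp f).out γ e, h2 γ e]
  have cm : ∀ f g, c (f * g) = c f + c g := fun f g => uq _ _
    (by simpa using (hc f).mul (hc g)) fun γ e => by
      rw [Pi.add_apply, (hp f).out γ e, (hp g).out γ e, add_zero]
  have ker : ∀ f, c f = 0 ↔ (f : (L Γ)ˣ) ∈ powU (L Γ) m := fun f => by
    constructor
    · intro h
      obtain ⟨y, h0, h1, h2⟩ := rep_iff.1 (hc f)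
      have hy : y ∈ MF Γ := mem_of_trivial hm h0 (by rw [h1, ← hj]; exact Subtype.prop _) fun γ => by
        rw [h2 γ γ.2, h, Pi.zero_apply, eM_zero]; simp
      obtain ⟨z, -, hz⟩ := bc.pow_of_pow hm.ne' (y := ⟨y, hy⟩) (f := (f : (L Γ)ˣ))
        (Subtype.ext (by rw [hj, ← h1]; rfl))
      exact mem_powU'.2 ⟨z, hz⟩
    · intro h
      obtain ⟨z, hz⟩ := mem_powU.1 h
      refine uq f 0 (rep_iff.2 ⟨j z, fun e => j0 z (Subtype.ext e), ?_, fun γ hγ => ?_⟩)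
        fun _ _ => rfl
      · rw [← hz, hj]; simp
      · rw [act_eq_self (j z).2 (Γ.inv_mem hγ), Pi.zero_apply, eM_zero, one_mul]
  let φ : divU Qb (L Γ) m →* Multiplicative (SL(2, ℤ) → ZMod m) :=
    MonoidHom.mk' (fun f => Multiplicative.ofAdd (c f)) fun f g => by rw [cm, ofAdd_add]
  let ψ : HK Qb (L Γ) m →* Multiplicative (SL(2, ℤ) → ZMod m) :=
    QuotientGroup.lift _ φ fun f hf => congrArg Multiplicative.ofAdd ((ker f).2 hf)
  have hk : ∀ f, MonoidHom.toAdditiveLeft ψ (cls f) = c f := fun f => rfl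
  have sj : ∀ x : Additive (HK Qb (L Γ) m), ∃ f, cls f = x := fun x =>
    QuotientGroup.mk_surjective (Additive.toMul x)
  refine ⟨MonoidHom.toAdditiveLeft ψ, ?_, fun x => ?_, fun c' h => ?_, fun f => hc f⟩
  · rw [injective_iff_map_eq_zero]
    intro x hx
    obtain ⟨f, rfl⟩ := sj x
    exact congrArg Additive.ofMul ((QuotientGroup.eq_one_iff f).2 ((ker f).1 hx))
  · obtain ⟨f, rfl⟩ := sj x
    exact hp f
  · have c1 : c' 1 = 0 := by simpa using h.add 1 Γ.one_mem 1 Γ.one_mem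
    let χ : Γ →* ℂˣ := MonoidHom.toHomUnits
      { toFun := fun γ : Γ => (ZMod.stdAddChar (c' γ) : ℂ)
        map_one' := by rw [Subgroup.coe_one, c1, AddChar.map_zero_eq_one]
        map_mul' := fun γ δ => by
          rw [Subgroup.coe_mul, h.add _ γ.2 _ δ.2, AddChar.map_add_eq_mul] }
    have hχ : ∀ γ : Γ, (χ γ : ℂ) = ZMod.stdAddChar (c' γ) := fun _ => rfl
    obtain ⟨y, y0, h1, h2⟩ := exists_of_char hm χ (MonoidHom.ext fun γ => Units.ext (by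
        rw [MonoidHom.pow_apply, Units.val_pow_eq_pow_val, hχ, ← AddChar.map_nsmul_eq_pow]
        simp)) fun γ e => Units.ext (by rw [hχ, e, h.neg]; simp)
    have r : Rep Γ m (y ^ m) c' := rep_iff.2 ⟨y, y0, rfl, fun γ hγ => h1 ⟨γ, hγ⟩⟩
    have f0 : (⟨y ^ m, h2⟩ : MF Γ) ≠ 0 := fun e => pow_ne_zero m y0 (congrArg Subtype.val e)
    obtain ⟨f, f1, f2, z, z0, hz⟩ := bc.exists_eq_mul_pow hm.ne' f0
      ((hO' _ f0).2 ⟨y, rfl, fun g k hg => (r.zero rfl hg).1 (h.par g k hg)⟩)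
    have z1 : (z : Mer) ≠ 0 := fun e => z0 (Subtype.ext e)
    refine ⟨cls ⟨Units.mk0 f f1, f2⟩, (hk _).trans (uq _ _ (rep_iff.2
      ⟨y / z, div_ne_zero y0 z1, ?_, fun γ hγ => ?_⟩) h.out)⟩
    · have e : y ^ m = (j f : Mer) * (z : Mer) ^ m := by simpa using congrArg Subtype.val hz
      rw [div_pow, e, mul_div_cancel_right₀ _ (pow_ne_zero m z1), hj]
      rfl
    · rw [map_div₀, (r.root rfl).2 γ hγ, act_eq_self z.2 (Γ.inv_mem hγ), mul_div_assoc]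

end Vale.Agent.P027M.Th
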