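import Vale.Agent.P027M.M.Spec
import Vale.Agent.P022.H587.L3.Kum
import Vale.Agent.P025.R2.H816.BC3
import Vale.Agent.P025.R2.H816.BC4

/-! # P027 route M, block Th: Kummer classes are parabolic homomorphisms (statements) -/

set_option linter.all false

open UpperHalfPlane Matrix
open scoped MatrixGroups IntermediateField

noncomputable section

namespace Vale.Agent.P027M.Th

open Vale.Agent.P022 Vale.Agent.P022.H218.L3 Vale.Agent.P022.H231.L3 Vale.Agent.P022.H236.L3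
  Vale.Agent.P022.H542.L3 Vale.Agent.P019P P025H816 P025H492 Vale.Agent.P027M.M

/-- the parabolic element `g T ^ h g⁻¹` -/
def pT (g : SL(2, ℤ)) (h : ℤ) : SL(2, ℤ) := g * ModularGroup.T ^ h * g⁻¹

/-- a parabolic homomorphism on `Γ`, extended by zero -/
structure Par (Γ : Subgroup SL(2, ℤ)) {A : Type} [AddCommGroup A] (c : SL(2, ℤ) → A) : Prop where
  add : ∀ γ ∈ Γ, ∀ δ ∈ Γ, c (γ * δ) = c γ + c δ
  par : ∀ g h, pT g h ∈ Γ → c (pT g h) = 0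
  neg : c (-1) = 0
  out : ∀ γ, γ ∉ Γ → c γ = 0

/-- `c` is the character of an `m`-th root of `x` -/
def Rep (Γ : Subgroup SL(2, ℤ)) (m : ℕ) (x : Mer) (c : SL(2, ℤ) → ZMod m) : Prop :=
  ∃ y : Mer, y ≠ 0 ∧ y ^ m = x ∧
    ∀ γ ∈ Γ, act γ⁻¹ y = algebraMap ℂ Mer (ze m ((c γ).val : ℕ)) * y

/-- the class of a function -/
def cls {k F : Type} [Field k] [Field F] [Algebra k F] [CFF k F] {m : ℕ} (f : divU k F m) :
    Additive (HK k F m) := Additive.ofMul (QuotientGroup.mk f)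

/-- the Kummer map -/
structure Kap (Γ : Subgroup SL(2, ℤ)) (m : ℕ) [CFF Qb (L Γ)]
    (kap : Additive (HK Qb (L Γ) m) →+ (SL(2, ℤ) → ZMod m)) : Prop where
  inj : Function.Injective kap
  par : ∀ x, Par Γ (kap x)
  onto : ∀ c, Par Γ c → ∃ x, kap x = c
  rep : ∀ f : divU Qb (L Γ) m, Rep Γ m (cv (((f : (L Γ)ˣ) : L Γ) : FF)) (kap (cls f))

/-- **KAP**: the Kummer map exists -/
def KAP : Prop := ∀ N Γ, Mid N Γ → ∀ [CFF Qb (L Γ)] (m : ℕ), 0 < m → ∃ kap, Kap Γ m kap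

/-- **REPP**: products of pull-backs (Hecke operators, diamonds, inclusions, norms) -/
def REPP : Prop := ∀ (Γ Γ' : Subgroup SL(2, ℤ)) (m : ℕ), 0 < m → ∀ (I : Type) [Fintype I]
  (A : I → M2) (hA : ∀ i, 0 < (A i).det) (x : Mer) (c c' : SL(2, ℤ) → ZMod m), Rep Γ m x c →
  Rep Γ' m (∏ i, pbz (A i) (hA i) x) c' → ∀ γ ∈ Γ', ∀ (s : Equiv.Perm I) (g : I → SL(2, ℤ)),
    (∀ i, g i ∈ Γ) → (∀ i, A i * (γ : M2) = (g i : M2) * A (s i)) → c' γ = ∑ i, c (g i)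

/-! ### the rows -/

/-- the complex level field is the constant field extension of the algebraic one -/
def KBC : Prop := ∀ N Γ, Mid N Γ → ∃ (_ : CFF ℂ (MF Γ)) (j : L Γ →+* MF Γ),
  (∀ x : L Γ, ((j x : MF Γ) : Mer) = cv (x : FF)) ∧ IsBC (io : Qb →+* ℂ) j

/-- the affine places of the complex level field -/
def KPA (X : Mdl) : Prop := ∀ N Γ, Mid N Γ → ∀ [CFF ℂ (MF Γ)],
  (∀ τ : ℍ, ∃ P : Plk ℂ (MF Γ), ∀ (x : MF Γ) (g h : ℍ → ℂ) (hg : g ∈ Hol) (hh : h ∈ Hol), g ≠ 0 →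
    h ≠ 0 → (x : Mer) = inc g hg / inc h hh →
      ord P x = (H587.L3.om τ g : ℤ) - H587.L3.om τ h) ∧
  ∀ (P : Plk ℂ (MF Γ)) (t : MF Γ) (a : ℂ), (t : Mer) = cv X.t → a ≠ 2 → a ≠ -2 →
    0 < ord P (t - algebraMap ℂ (MF Γ) a) →
      ∃ θ : Mer →+* LS, ∀ x : MF Γ, ord P x = (θ (x : Mer)).order

/-- `h` is the width of the cusp `γ ∞` -/
def Wid (Γ : Subgroup SL(2, ℤ)) (γ : SL(2, ℤ)) (h : ℕ) : Prop :=
  0 < h ∧ ∀ j : ℤ, pT γ j ∈ Γ ↔ (h : ℤ) ∣ j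

/-- a uniformiser at a cusp -/
def KWID : Prop := ∀ N Γ, Mid N Γ → ∀ γ h, Wid Γ γ h →
  ∃ (x : L Γ) (s : LS), ExM h s (act γ⁻¹ (cv (x : FF))) ∧ s.order = 1

/-- `P` is the cusp `γ ∞` of width `h` -/
def CuspC {Γ : Subgroup SL(2, ℤ)} [CFF ℂ (MF Γ)] (γ : SL(2, ℤ)) (h : ℕ) (P : Plk ℂ (MF Γ)) : Prop :=
  ∀ (x : MF Γ) (s : LS), ExM h s (act γ⁻¹ (x : Mer)) → ord P x = s.order

/-- the cusps of the complex level field -/
def KPC (X : Mdl) : Prop := ∀ N Γ, Mid N Γ → ∀ [CFF ℂ (MF Γ)],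
  (∀ γ, ∃ h, Wid Γ γ h) ∧ (∀ γ h, Wid Γ γ h → ∃ P : Plk ℂ (MF Γ), CuspC γ h P) ∧
  ∀ (P : Plk ℂ (MF Γ)) (t : MF Γ), (t : Mer) = cv X.t →
    (0 < ord P (t - 2) ∨ 0 < ord P (t + 2) ∨ ord P t < 0) → ∃ γ h, Wid Γ γ h ∧ CuspC γ h P

/-- all orders are divisible by `m` if and only if there is a root fixed by the parabolic
elements -/
def KORD : Prop := ∀ N Γ, Mid N Γ → ∀ [CFF ℂ (MF Γ)] (m : ℕ), 0 < m → ∀ f : MF Γ, f ≠ 0 →
  ((∀ P : Plk ℂ (MF Γ), (m : ℤ) ∣ ord P f) ↔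
    ∃ y : Mer, y ^ m = (f : Mer) ∧ ∀ g h, pT g h ∈ Γ → act (pT g h) y = y)

def Spec_KBC : Prop := ∀ X : Mdl, GRP → FAITH X → KBC
def Spec_KPA : Prop := ∀ X : Mdl, GRP → KBC → KPA X
def Spec_KWID : Prop := ∀ X : Mdl, GRP → ARTIN X → CFFS → EXP → PLC X → KWID
def Spec_KPC : Prop := ∀ X : Mdl, GRP → ARTIN X → CFFS → PLC X → KBC → KWID → KPC X
def Spec_KORD : Prop := ∀ X : Mdl, GRP → EXP → KPA X → KPC X → KORD
def Spec_KAP : Prop := GRP → KBC → KORD → KAP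

end Vale.Agent.P027M.Th
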